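import Vale.Agent.P273.H183.RealA1
import Vale.Agent.P273.H888.FS

/-! Existence of the standard families near the interior points. -/

noncomputable section

namespace Vale.Agent.P273.H183

open Set Filter Topology
open Vale.Agent.P273.H95 (E L OnC Sep Same pol)
open Vale.Agent.P273.H680 (k20)

/-- **(A1)** of `H888`. -/
theorem a1 : H888.A1 := by
  intro S e v hK hv hS
  have hc : k20 (k20.symm e) = e := k20.apply_symm_apply e
  obtain ⟨W, V, D, hW, hV⟩ := exists_loc k20 S (c := k20.symm e) (v := v)
    (by rw [hc, ← H724.K6_eq]; exact hK) (fun j => by rw [hc, polS_eq]; exact (hv j).1)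
    fun j => (hv j).2
  have hWe : ∀ᶠ p in 𝓝 e, k20.symm p ∈ W :=
    k20.symm.continuous.continuousAt.eventually (D.opn.mem_nhds hW)
  obtain ⟨C, h1, h2⟩ := real_int (sg := fun p j => V j (k20.symm p)) hK hv hS
    (fun j => AnalyticAt.comp (g := V j) (f := fun p => k20.symm p) (D.an j _ hW)
      (ContinuousLinearMap.analyticAt (k20.symm : E →L[ℂ] (Fin 20 → ℂ)) e))
    (funext hV) (by
      filter_upwards [hWe] with p hp j
      have h3 := D.sq j _ hp
      rw [polS_eq] at h3
      have h4 : k20 (k20.symm p) = p := k20.apply_symm_apply p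
      change V j (k20.symm p) ^ 2 = pol (S j) (k20 (k20.symm p)).1 ((k20 (k20.symm p)).2 j) at h3
      rwa [h4] at h3)
  exact ⟨C, _, h1, h2, funext hV⟩

end Vale.Agent.P273.H183

end
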