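import Vale.Agent.P273.H183.Chart

/-! Charts from ambient coordinates: smooth points, nodes, square roots, implicit functions. -/

noncomputable section

namespace Vale.Agent.P273.H183

open Set Filter
open scoped Topology

variable {X : Type} [TopologicalSpace X] {m : ℕ}

/-- An injective endomorphism of a finite dimensional space is invertible. -/
theorem exists_equiv {A : Type*} [NormedAddCommGroup A] [NormedSpace ℂ A] [FiniteDimensional ℂ A]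
    (D : A →L[ℂ] A) (hD : ∀ v, D v = 0 → v = 0) : ∃ D' : A ≃L[ℂ] A, (D' : A →L[ℂ] A) = D := by
  have hi : Function.Injective (D : A →ₗ[ℂ] A) := (injective_iff_map_eq_zero _).2 hD
  exact ⟨(LinearEquiv.ofInjectiveEndo (D : A →ₗ[ℂ] A) hi).toContinuousLinearEquiv, by
    ext v; rfl⟩

/-- A chart from ambient coordinates; the derivative is only assumed to be injective. -/
theorem IsAmb.chart {π : X → Fin m → ℂ} {hol : (X → ℂ) → X → Prop} {O : Set X}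
    {α β : X → ℂ} {Z : Set ((Fin m → ℂ) × ℂ × ℂ)} (h : IsAmb π hol O α β Z) {p₀ : X}
    (hp₀ : p₀ ∈ O) {X' Y' : (Fin m → ℂ) × ℂ × ℂ → ℂ} {t : (Fin m → ℂ) → ℂ}
    (hX : AnalyticAt ℂ X' (π p₀, α p₀, β p₀)) (hY : AnalyticAt ℂ Y' (π p₀, α p₀, β p₀))
    (ht : AnalyticAt ℂ t (π p₀)) {dX dY : (Fin m → ℂ) × ℂ × ℂ →L[ℂ] ℂ}
    (hdX : HasFDerivAt X' dX (π p₀, α p₀, β p₀)) (hdY : HasFDerivAt Y' dY (π p₀, α p₀, β p₀))
    (hi : ∀ v : ℂ × ℂ, dX (0, v) = 0 → dY (0, v) = 0 → v = 0)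
    (hZ : ∀ᶠ z in 𝓝 ((π p₀, α p₀, β p₀) : (Fin m → ℂ) × ℂ × ℂ), z ∈ Z ↔ X' z * Y' z = t z.1) :
    ∃ U, p₀ ∈ U ∧ U ⊆ O ∧ IsChart π hol U (fun p => X' (π p, α p, β p))
      (fun p => Y' (π p, α p, β p)) t := by
  obtain ⟨D, hD⟩ := exists_equiv ((ContinuousLinearMap.fst ℂ (Fin m → ℂ) (ℂ × ℂ)).prod
    (dX.prod dY)) (by
      rintro ⟨b, v⟩ hv
      simp only [ContinuousLinearMap.prod_apply, ContinuousLinearMap.coe_fst', Prod.mk_eq_zero] at hv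
      obtain ⟨rfl, h1, h2⟩ := hv
      rw [hi v h1 h2]; rfl)
  exact h.isChart hp₀ hX hY ht D (hD ▸ hasFDerivAt_fst.prodMk (hdX.prodMk hdY)) hZ

theorem fderiv_snd {F : (Fin m → ℂ) × ℂ × ℂ → ℂ} {z₀ : (Fin m → ℂ) × ℂ × ℂ}
    {F' : (Fin m → ℂ) × ℂ × ℂ →L[ℂ] ℂ} (hF : HasFDerivAt F F' z₀) {d : ℂ}
    (hd : HasDerivAt (fun y => F (z₀.1, z₀.2.1, y)) d z₀.2.2) : F' (0, 0, 1) = d := by
  have h1 : HasDerivAt (fun y : ℂ => ((z₀.1, z₀.2.1, y) : (Fin m → ℂ) × ℂ × ℂ)) (0, 0, 1) z₀.2.2 :=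
    (hasDerivAt_const _ _).prodMk ((hasDerivAt_const _ _).prodMk (hasDerivAt_id _))
  have h2 : HasFDerivAt F F' (z₀.1, z₀.2.1, z₀.2.2) := hF
  exact (h2.comp_hasDerivAt _ h1).unique hd

theorem fderiv_mid {F : (Fin m → ℂ) × ℂ × ℂ → ℂ} {z₀ : (Fin m → ℂ) × ℂ × ℂ}
    {F' : (Fin m → ℂ) × ℂ × ℂ →L[ℂ] ℂ} (hF : HasFDerivAt F F' z₀) {d : ℂ}
    (hd : HasDerivAt (fun x => F (z₀.1, x, z₀.2.2)) d z₀.2.1) : F' (0, 1, 0) = d := by
  have h1 : HasDerivAt (fun x : ℂ => ((z₀.1, x, z₀.2.2) : (Fin m → ℂ) × ℂ × ℂ)) (0, 1, 0) z₀.2.1 :=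
    (hasDerivAt_const _ _).prodMk ((hasDerivAt_id _).prodMk (hasDerivAt_const _ _))
  have h2 : HasFDerivAt F F' (z₀.1, z₀.2.1, z₀.2.2) := hF
  exact (h2.comp_hasDerivAt _ h1).unique hd

theorem clm_eq (F' : (Fin m → ℂ) × ℂ × ℂ →L[ℂ] ℂ) (v : ℂ × ℂ) :
    F' (0, v) = v.1 * F' (0, 1, 0) + v.2 * F' (0, 0, 1) := by
  have : ((0, v) : (Fin m → ℂ) × ℂ × ℂ) = v.1 • (0, 1, 0) + v.2 • (0, 0, 1) := by
    refine Prod.ext (by simp) (Prod.ext ?_ ?_) <;> simp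
  rw [this, map_add, map_smul, map_smul, smul_eq_mul, smul_eq_mul]

theorem hasFDerivAt_mid (z₀ : (Fin m → ℂ) × ℂ × ℂ) :
    HasFDerivAt (fun z : (Fin m → ℂ) × ℂ × ℂ => z.2.1)
      ((ContinuousLinearMap.fst ℂ ℂ ℂ).comp (ContinuousLinearMap.snd ℂ (Fin m → ℂ) (ℂ × ℂ))) z₀ :=
  ((ContinuousLinearMap.fst ℂ ℂ ℂ).comp
    (ContinuousLinearMap.snd ℂ (Fin m → ℂ) (ℂ × ℂ))).hasFDerivAt

theorem hasFDerivAt_snd' (z₀ : (Fin m → ℂ) × ℂ × ℂ) :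
    HasFDerivAt (fun z : (Fin m → ℂ) × ℂ × ℂ => z.2.2)
      ((ContinuousLinearMap.snd ℂ ℂ ℂ).comp (ContinuousLinearMap.snd ℂ (Fin m → ℂ) (ℂ × ℂ))) z₀ :=
  ((ContinuousLinearMap.snd ℂ ℂ ℂ).comp
    (ContinuousLinearMap.snd ℂ (Fin m → ℂ) (ℂ × ℂ))).hasFDerivAt

theorem analyticAt_mid (z₀ : (Fin m → ℂ) × ℂ × ℂ) :
    AnalyticAt ℂ (fun z : (Fin m → ℂ) × ℂ × ℂ => z.2.1) z₀ :=
  AnalyticAt.comp analyticAt_fst analyticAt_snd

theorem analyticAt_snd' (z₀ : (Fin m → ℂ) × ℂ × ℂ) :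
    AnalyticAt ℂ (fun z : (Fin m → ℂ) × ℂ × ℂ => z.2.2) z₀ :=
  AnalyticAt.comp analyticAt_snd analyticAt_snd

/-- A chart near a smooth point: `Z` is `F = 0` and one of the partial derivatives is not zero. -/
theorem IsAmb.smooth {π : X → Fin m → ℂ} {hol : (X → ℂ) → X → Prop} {O : Set X}
    {α β : X → ℂ} {Z : Set ((Fin m → ℂ) × ℂ × ℂ)} (h : IsAmb π hol O α β Z) {p₀ : X}
    (hp₀ : p₀ ∈ O) {F : (Fin m → ℂ) × ℂ × ℂ → ℂ}
    (hF : AnalyticAt ℂ F (π p₀, α p₀, β p₀))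
    (hZ : ∀ᶠ z in 𝓝 ((π p₀, α p₀, β p₀) : (Fin m → ℂ) × ℂ × ℂ), z ∈ Z ↔ F z = 0) {d : ℂ}
    (hd : d ≠ 0) (hne : HasDerivAt (fun y => F (π p₀, α p₀, y)) d (β p₀) ∨
      HasDerivAt (fun x => F (π p₀, x, β p₀)) d (α p₀)) :
    ∃ U x y, p₀ ∈ U ∧ U ⊆ O ∧ IsChart π hol U x y (fun _ => 1) := by
  set z₀ : (Fin m → ℂ) × ℂ × ℂ := (π p₀, α p₀, β p₀) with hz₀
  have hF' := hF.differentiableAt.hasFDerivAt
  set F' := fderiv ℂ F z₀
  have key : ∀ (ℓ : (Fin m → ℂ) × ℂ × ℂ →L[ℂ] ℂ), (∀ v : ℂ × ℂ, ℓ (0, v) = 0 → F' (0, v) = 0 → v = 0) →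
      ∃ U x y, p₀ ∈ U ∧ U ⊆ O ∧ IsChart π hol U x y (fun _ => 1) := by
    intro ℓ hℓ
    have hX : AnalyticAt ℂ (fun z => 1 + ℓ (z - z₀)) z₀ :=
      analyticAt_const.add ((ℓ.analyticAt _).comp (analyticAt_id.sub analyticAt_const))
    have hX0 : (fun z => 1 + ℓ (z - z₀)) z₀ ≠ 0 := by simp
    have hdX : HasFDerivAt (fun z => 1 + ℓ (z - z₀)) ℓ z₀ := by
      have h2 : HasFDerivAt (fun z => ℓ z - ℓ z₀) ℓ z₀ := ℓ.hasFDerivAt.sub_const _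
      simpa only [map_sub] using h2.const_add 1
    have hdY : HasFDerivAt (fun z => (1 + ℓ (z - z₀))⁻¹ + F z) (-ℓ + F') z₀ := by
      have h1 := (hasDerivAt_inv hX0).comp_hasFDerivAt z₀ hdX
      have h2 : ((-((fun z => 1 + ℓ (z - z₀)) z₀ ^ 2)⁻¹ : ℂ) • ℓ) = -ℓ := by
        ext v <;> simp
      rw [h2] at h1
      exact h1.add hF'
    obtain ⟨U, h1, h2, h3⟩ := h.chart hp₀ (X' := fun z => 1 + ℓ (z - z₀))
      (Y' := fun z => (1 + ℓ (z - z₀))⁻¹ + F z) (t := fun _ => 1) hX ((hX.inv hX0).add hF)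
      analyticAt_const hdX hdY (fun v h1 h2 => hℓ v h1 (by
        simpa [h1] using h2)) (by
        filter_upwards [hZ, hX.continuousAt.eventually_ne hX0] with z hz hne
        rw [hz, mul_add, mul_inv_cancel₀ hne]
        constructor
        · intro e; rw [e]; ring
        · intro e
          have : (1 + ℓ (z - z₀)) * F z = 0 := by linear_combination e
          exact (mul_eq_zero.1 this).resolve_left hne)
    exact ⟨U, _, _, h1, h2, h3⟩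
  rcases hne with hne | hne
  · have e := fderiv_snd hF' hne
    refine key ((ContinuousLinearMap.fst ℂ ℂ ℂ).comp
      (ContinuousLinearMap.snd ℂ (Fin m → ℂ) (ℂ × ℂ))) fun v h1 h2 => ?_
    have h1' : v.1 = 0 := h1
    rw [clm_eq, h1', zero_mul, zero_add, e] at h2
    exact Prod.ext h1' ((mul_eq_zero.1 h2).resolve_right hd)
  · have e := fderiv_mid hF' hne
    refine key ((ContinuousLinearMap.snd ℂ ℂ ℂ).comp
      (ContinuousLinearMap.snd ℂ (Fin m → ℂ) (ℂ × ℂ))) fun v h1 h2 => ?_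
    have h1' : v.2 = 0 := h1
    rw [clm_eq, h1', zero_mul, add_zero, e] at h2
    exact Prod.ext ((mul_eq_zero.1 h2).resolve_right hd) h1'

/-- A holomorphic square root. -/
theorem exists_sqrt {A : Type*} [NormedAddCommGroup A] [NormedSpace ℂ A] {H : A → ℂ} {z₀ : A}
    (hH : AnalyticAt ℂ H z₀) (h0 : H z₀ ≠ 0) :
    ∃ r : A → ℂ, AnalyticAt ℂ r z₀ ∧ r z₀ ≠ 0 ∧ ∀ᶠ z in 𝓝 z₀, r z ^ 2 = H z := by
  obtain ⟨ρ, hρ⟩ := IsAlgClosed.exists_pow_nat_eq (H z₀) (n := 2) (by norm_num)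
  have hρ0 : ρ ≠ 0 := by rintro rfl; apply h0; rw [← hρ]; norm_num
  have hq : AnalyticAt ℂ (fun z => H z / H z₀) z₀ := hH.div analyticAt_const h0
  have hs : (fun z => H z / H z₀) z₀ ∈ Complex.slitPlane := by
    simp only [div_self h0]; exact Complex.one_mem_slitPlane
  refine ⟨fun z => ρ * Complex.exp (Complex.log (H z / H z₀) / 2), ?_, ?_, ?_⟩
  · exact analyticAt_const.mul ((hq.clog hs).div analyticAt_const (by norm_num)).cexp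
  · exact mul_ne_zero hρ0 (Complex.exp_ne_zero _)
  · filter_upwards [hH.continuousAt.eventually_ne h0] with z hz
    rw [mul_pow, ← Complex.exp_nat_mul, hρ]
    have : ((2 : ℕ) : ℂ) * (Complex.log (H z / H z₀) / 2) = Complex.log (H z / H z₀) := by
      push_cast; ring
    rw [this, Complex.exp_log (div_ne_zero hz h0)]
    field_simp

/-- The holomorphic implicit function theorem in one unknown. -/
theorem exists_implicit {G : (Fin m → ℂ) × ℂ → ℂ} {b₀ : Fin m → ℂ} {x₀ : ℂ}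
    (hG : AnalyticAt ℂ G (b₀, x₀)) (h0 : G (b₀, x₀) = 0) {d : ℂ} (hd : d ≠ 0)
    (hG' : HasDerivAt (fun x => G (b₀, x)) d x₀) :
    ∃ c : (Fin m → ℂ) → ℂ, AnalyticAt ℂ c b₀ ∧ c b₀ = x₀ ∧ ∀ᶠ b in 𝓝 b₀, G (b, c b) = 0 := by
  have hF := hG.differentiableAt.hasFDerivAt
  set G' := fderiv ℂ G (b₀, x₀)
  have e : G' (0, 1) = d := by
    have h1 : HasDerivAt (fun x : ℂ => ((b₀, x) : (Fin m → ℂ) × ℂ)) (0, 1) x₀ :=
      (hasDerivAt_const _ _).prodMk (hasDerivAt_id _)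
    exact (hF.comp_hasDerivAt _ h1).unique hG'
  obtain ⟨D, hD⟩ := exists_equiv ((ContinuousLinearMap.fst ℂ (Fin m → ℂ) ℂ).prod G') (by
    rintro ⟨b, v⟩ hv
    simp only [ContinuousLinearMap.prod_apply, ContinuousLinearMap.coe_fst', Prod.mk_eq_zero] at hv
    obtain ⟨rfl, h1⟩ := hv
    have h2 : ((0, v) : (Fin m → ℂ) × ℂ) = v • (0, 1) := by simp
    rw [h2, map_smul, e, smul_eq_mul] at h1
    rw [(mul_eq_zero.1 h1).resolve_right hd]; rfl)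
  obtain ⟨R, hR, h0', -, -, hsy⟩ := exists_inv (Ψ := fun z : (Fin m → ℂ) × ℂ => (z.1, G z))
    (z₀ := (b₀, x₀)) (analyticAt_fst.prod hG) D (hD ▸ hasFDerivAt_fst.prodMk hF) univ_mem
  have hR0 : R (b₀, x₀) = (b₀, 0) := by rw [hR _ h0', h0]
  have hs0 : R.symm (b₀, 0) = (b₀, x₀) := by rw [← hR0]; exact R.left_inv h0'
  have ht0 : ((b₀, 0) : (Fin m → ℂ) × ℂ) ∈ R.target := by rw [← hR0]; exact R.map_source h0'
  have hj : ContinuousAt (fun b : Fin m → ℂ => ((b, 0) : (Fin m → ℂ) × ℂ)) b₀ := by fun_prop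
  refine ⟨fun b => (R.symm (b, 0)).2, ?_, by simp only [hs0], ?_⟩
  · have h1 : AnalyticAt ℂ (fun b : Fin m → ℂ => ((b, 0) : (Fin m → ℂ) × ℂ)) b₀ :=
      analyticAt_id.prod analyticAt_const
    exact AnalyticAt.comp analyticAt_snd (AnalyticAt.comp (hsy _ ht0) h1)
  · filter_upwards [hj.eventually (R.open_target.mem_nhds ht0)] with b hb
    have h1 := R.right_inv hb
    rw [hR _ (R.map_target hb)] at h1
    have h2 : (R.symm (b, 0)).1 = b := congrArg Prod.fst h1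
    have h3 : G (R.symm (b, 0)) = 0 := congrArg Prod.snd h1
    have h4 : ((b, (R.symm (b, 0)).2) : (Fin m → ℂ) × ℂ) = R.symm (b, 0) := Prod.ext h2.symm rfl
    rw [h4]; exact h3

/-- A chart `(s + q) (s - q) = t`. -/
theorem IsAmb.node {π : X → Fin m → ℂ} {hol : (X → ℂ) → X → Prop} {O : Set X}
    {α β : X → ℂ} {Z : Set ((Fin m → ℂ) × ℂ × ℂ)} (h : IsAmb π hol O α β Z) {p₀ : X}
    (hp₀ : p₀ ∈ O) {s q : (Fin m → ℂ) × ℂ × ℂ → ℂ} {t : (Fin m → ℂ) → ℂ}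
    (hs : AnalyticAt ℂ s (π p₀, α p₀, β p₀)) (hq : AnalyticAt ℂ q (π p₀, α p₀, β p₀))
    (ht : AnalyticAt ℂ t (π p₀)) {s1 s2 q1 q2 : ℂ}
    (hs1 : HasDerivAt (fun x => s (π p₀, x, β p₀)) s1 (α p₀))
    (hs2 : HasDerivAt (fun y => s (π p₀, α p₀, y)) s2 (β p₀))
    (hq1 : HasDerivAt (fun x => q (π p₀, x, β p₀)) q1 (α p₀))
    (hq2 : HasDerivAt (fun y => q (π p₀, α p₀, y)) q2 (β p₀)) (hdet : s1 * q2 - s2 * q1 ≠ 0)
    (hZ : ∀ᶠ z in 𝓝 ((π p₀, α p₀, β p₀) : (Fin m → ℂ) × ℂ × ℂ),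
      z ∈ Z ↔ s z ^ 2 - q z ^ 2 = t z.1) :
    ∃ U, p₀ ∈ U ∧ U ⊆ O ∧ IsChart π hol U (fun p => s (π p, α p, β p) + q (π p, α p, β p))
      (fun p => s (π p, α p, β p) - q (π p, α p, β p)) t := by
  have ds := hs.differentiableAt.hasFDerivAt
  have dq := hq.differentiableAt.hasFDerivAt
  set s' := fderiv ℂ s (π p₀, α p₀, β p₀)
  set q' := fderiv ℂ q (π p₀, α p₀, β p₀)
  have es1 : s' (0, 1, 0) = s1 := fderiv_mid ds hs1
  have es2 : s' (0, 0, 1) = s2 := fderiv_snd ds hs2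
  have eq1 : q' (0, 1, 0) = q1 := fderiv_mid dq hq1
  have eq2 : q' (0, 0, 1) = q2 := fderiv_snd dq hq2
  refine h.chart hp₀ (X' := fun z => s z + q z) (Y' := fun z => s z - q z) (hs.add hq) (hs.sub hq)
    ht (ds.add dq) (ds.sub dq) (fun v h1 h2 => ?_) ?_
  · have h1' : s' (0, v) + q' (0, v) = 0 := h1
    have h2' : s' (0, v) - q' (0, v) = 0 := h2
    rw [clm_eq s', clm_eq q', es1, es2, eq1, eq2] at h1' h2'
    have e1 : v.1 * (s1 * q2 - s2 * q1) = 0 := by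
      linear_combination (q2 - s2) / 2 * h1' + (q2 + s2) / 2 * h2'
    have e2 : v.2 * (s1 * q2 - s2 * q1) = 0 := by
      linear_combination (s1 - q1) / 2 * h1' - (s1 + q1) / 2 * h2'
    exact Prod.ext ((mul_eq_zero.1 e1).resolve_right hdet) ((mul_eq_zero.1 e2).resolve_right hdet)
  · filter_upwards [hZ] with z hz
    rw [hz]
    constructor <;> intro e <;> linear_combination e

end Vale.Agent.P273.H183

end
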