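import Vale.Agent.P273.H183.Fam

/-! Charts of families from ambient coordinates. -/

noncomputable section

namespace Vale.Agent.P273.H183

open Set Filter
open scoped Topology

variable {X : Type} [TopologicalSpace X] {m : ℕ}

/-- `(π, α, β)` is an embedding of the open set `O` onto an open part of `Z`, and the holomorphic
functions are the restrictions of the holomorphic functions of `(π, α, β)`. -/
structure IsAmb (π : X → Fin m → ℂ) (hol : (X → ℂ) → X → Prop) (O : Set X) (α β : X → ℂ)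
    (Z : Set ((Fin m → ℂ) × ℂ × ℂ)) : Prop where
  op : IsOpen O
  inj : InjOn (fun p => (π p, α p, β p)) O
  img : ∀ V ⊆ O, IsOpen V ↔ ∃ W : Set ((Fin m → ℂ) × ℂ × ℂ), IsOpen W ∧
    (fun p => (π p, α p, β p)) '' V = W ∩ Z
  hol_iff : ∀ p ∈ O, ∀ f, hol f p ↔ ∃ g : (Fin m → ℂ) × ℂ × ℂ → ℂ,
    AnalyticAt ℂ g (π p, α p, β p) ∧ ∀ᶠ q in 𝓝 p, f q = g (π q, α q, β q)

theorem IsAmb.isOpen_inter {π : X → Fin m → ℂ} {hol : (X → ℂ) → X → Prop} {O : Set X}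
    {α β : X → ℂ} {Z : Set ((Fin m → ℂ) × ℂ × ℂ)} (h : IsAmb π hol O α β Z)
    {S : Set ((Fin m → ℂ) × ℂ × ℂ)} (hS : IsOpen S) :
    IsOpen (O ∩ (fun p => (π p, α p, β p)) ⁻¹' S) := by
  obtain ⟨W, hW, e⟩ := (h.img O subset_rfl).1 h.op
  refine (h.img _ inter_subset_left).2 ⟨W ∩ S, hW.inter hS, ?_⟩
  ext z
  constructor
  · rintro ⟨p, ⟨hp, hs⟩, rfl⟩
    have : (π p, α p, β p) ∈ W ∩ Z := e ▸ mem_image_of_mem _ hp
    exact ⟨⟨this.1, hs⟩, this.2⟩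
  · rintro ⟨⟨hw, hs⟩, hz⟩
    have : z ∈ (fun p => (π p, α p, β p)) '' O := by rw [e]; exact ⟨hw, hz⟩
    obtain ⟨p, hp, rfl⟩ := this
    exact ⟨p, ⟨hp, hs⟩, rfl⟩

/-- Local inverse of a holomorphic map with invertible derivative, with open source and target. -/
theorem exists_inv {A : Type*} [NormedAddCommGroup A] [NormedSpace ℂ A] [CompleteSpace A]
    {Ψ : A → A} {z₀ : A} (hΨ : AnalyticAt ℂ Ψ z₀) (D : A ≃L[ℂ] A)
    (hD : HasFDerivAt Ψ (D : A →L[ℂ] A) z₀) {N : Set A} (hN : N ∈ 𝓝 z₀) :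
    ∃ R : OpenPartialHomeomorph A A, (∀ z ∈ R.source, R z = Ψ z) ∧ z₀ ∈ R.source ∧
      R.source ⊆ N ∧ (∀ z ∈ R.source, AnalyticAt ℂ Ψ z) ∧
      ∀ w ∈ R.target, AnalyticAt ℂ R.symm w := by
  have hs : HasStrictFDerivAt Ψ (D : A →L[ℂ] A) z₀ := by
    have := hΨ.hasStrictFDerivAt
    rwa [hD.fderiv] at this
  set R₀ := hs.toOpenPartialHomeomorph Ψ with hR₀
  have h₀ : z₀ ∈ R₀.source := hs.mem_toOpenPartialHomeomorph_source
  have e₀ : ∀ z, R₀ z = Ψ z := fun z => rfl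
  have ha : AnalyticAt ℂ R₀.symm (R₀ z₀) := R₀.analyticAt_symm' h₀ hΨ hD.fderiv
  obtain ⟨T, hT, hTo, hTm⟩ := mem_nhds_iff.1 ha.eventually_analyticAt
  obtain ⟨S, hS, hSo, hSm⟩ := mem_nhds_iff.1 (inter_mem hN hΨ.eventually_analyticAt)
  have hO : IsOpen (R₀.source ∩ R₀ ⁻¹' T) := R₀.isOpen_inter_preimage hTo
  refine ⟨R₀.restrOpen (S ∩ (R₀.source ∩ R₀ ⁻¹' T)) (hSo.inter hO), fun z _ => rfl,
    ⟨h₀, hSm, h₀, hTm⟩, fun z hz => (hS hz.2.1).1, fun z hz => (hS hz.2.1).2, fun w hw => ?_⟩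
  have h1 := (R₀.restrOpen (S ∩ (R₀.source ∩ R₀ ⁻¹' T)) (hSo.inter hO)).map_target hw
  have h2 : R₀.symm w ∈ R₀ ⁻¹' T := h1.2.2.2
  have h3 : w ∈ R₀.target := hw.1
  have h4 : R₀ (R₀.symm w) = w := R₀.right_inv h3
  rw [mem_preimage, h4] at h2
  exact hT h2

/-- A chart from ambient coordinates `(b, X', Y')` in which `Z` is `X' Y' = t(b)`. -/
theorem IsAmb.isChart {π : X → Fin m → ℂ} {hol : (X → ℂ) → X → Prop} {O : Set X}
    {α β : X → ℂ} {Z : Set ((Fin m → ℂ) × ℂ × ℂ)} (h : IsAmb π hol O α β Z) {p₀ : X}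
    (hp₀ : p₀ ∈ O) {X' Y' : (Fin m → ℂ) × ℂ × ℂ → ℂ} {t : (Fin m → ℂ) → ℂ}
    (hX : AnalyticAt ℂ X' (π p₀, α p₀, β p₀)) (hY : AnalyticAt ℂ Y' (π p₀, α p₀, β p₀))
    (ht : AnalyticAt ℂ t (π p₀))
    (D : ((Fin m → ℂ) × ℂ × ℂ) ≃L[ℂ] ((Fin m → ℂ) × ℂ × ℂ))
    (hD : HasFDerivAt (fun z => (z.1, X' z, Y' z))
      (D : ((Fin m → ℂ) × ℂ × ℂ) →L[ℂ] ((Fin m → ℂ) × ℂ × ℂ)) (π p₀, α p₀, β p₀))
    (hZ : ∀ᶠ z in 𝓝 ((π p₀, α p₀, β p₀) : (Fin m → ℂ) × ℂ × ℂ), z ∈ Z ↔ X' z * Y' z = t z.1) :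
    ∃ U, p₀ ∈ U ∧ U ⊆ O ∧ IsChart π hol U (fun p => X' (π p, α p, β p))
      (fun p => Y' (π p, α p, β p)) t := by
  have hΨ : AnalyticAt ℂ (fun z : (Fin m → ℂ) × ℂ × ℂ => (z.1, X' z, Y' z))
      (π p₀, α p₀, β p₀) := analyticAt_fst.prod (hX.prod hY)
  have ht' : ∀ᶠ z in 𝓝 ((π p₀, α p₀, β p₀) : (Fin m → ℂ) × ℂ × ℂ), AnalyticAt ℂ t z.1 :=
    continuousAt_fst.eventually ht.eventually_analyticAt
  obtain ⟨R, hR, h0, hN, han, hsy⟩ := exists_inv hΨ D hD (hZ.and ht')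
  set κ : X → (Fin m → ℂ) × ℂ × ℂ := fun p => (π p, α p, β p) with hκ
  set Ψ : (Fin m → ℂ) × ℂ × ℂ → (Fin m → ℂ) × ℂ × ℂ := fun z => (z.1, X' z, Y' z) with hΨd
  have hR' : ∀ z ∈ R.source, Ψ z = R z := fun z hz => (hR z hz).symm
  have hUo : IsOpen (O ∩ κ ⁻¹' R.source) := h.isOpen_inter R.open_source
  have hinj : InjOn Ψ R.source := fun a ha b hb e => R.injOn ha hb (by rw [hR a ha, hR b hb]; exact e)
  refine ⟨O ∩ κ ⁻¹' R.source, ⟨hp₀, h0⟩, inter_subset_left, hUo, fun p hp => (hN hp.2).2,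
    fun a ha b hb e => h.inj ha.1 hb.1 (hinj ha.2 hb.2 e), fun V hV => ?_, fun p hp f => ?_⟩
  · have him : (fun p => (π p, X' (π p, α p, β p), Y' (π p, α p, β p))) '' V = Ψ '' (κ '' V) := by
      rw [image_image]
    have hVS : κ '' V ⊆ R.source := by
      rintro _ ⟨p, hp, rfl⟩
      exact (hV hp).2
    rw [h.img V (hV.trans inter_subset_left), him]
    constructor
    · rintro ⟨W, hW, e⟩
      refine ⟨R '' (W ∩ R.source), ?_, ?_⟩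
      · have := R.isOpen_image_source_inter hW
        rwa [inter_comm] at this
      · rw [show κ '' V = W ∩ Z from e]
        ext w
        constructor
        · rintro ⟨z, hz, rfl⟩
          have hzs : z ∈ R.source := hVS (by rw [show κ '' V = W ∩ Z from e]; exact hz)
          exact ⟨⟨z, ⟨hz.1, hzs⟩, hR z hzs⟩, (hN hzs).1.1 hz.2⟩
        · rintro ⟨⟨z, ⟨hzW, hzs⟩, rfl⟩, hm⟩
          rw [hR z hzs] at hm ⊢
          exact ⟨z, ⟨hzW, (hN hzs).1.2 hm⟩, rfl⟩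
    · rintro ⟨W', hW', e⟩
      refine ⟨R.source ∩ R ⁻¹' W', R.isOpen_inter_preimage hW', ?_⟩
      change κ '' V = _
      ext z
      constructor
      · intro hz
        have hzs := hVS hz
        have : Ψ z ∈ {w ∈ W' | w.2.1 * w.2.2 = t w.1} := by rw [← e]; exact ⟨z, hz, rfl⟩
        exact ⟨⟨hzs, by rw [mem_preimage, hR z hzs]; exact this.1⟩, (hN hzs).1.2 this.2⟩
      · rintro ⟨⟨hzs, hzW⟩, hzZ⟩
        rw [mem_preimage, hR z hzs] at hzW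
        have : Ψ z ∈ {w ∈ W' | w.2.1 * w.2.2 = t w.1} := ⟨hzW, (hN hzs).1.1 hzZ⟩
        rw [← e] at this
        obtain ⟨z', hz', e'⟩ := this
        rwa [← hinj (hVS hz') hzs e']
  · rw [h.hol_iff p hp.1 f]
    have hev : ∀ᶠ q in 𝓝 p, κ q ∈ R.source := by
      filter_upwards [hUo.mem_nhds hp] with q hq using hq.2
    have hΨp : AnalyticAt ℂ Ψ (κ p) := han _ hp.2
    have hmt : Ψ (κ p) ∈ R.target := by rw [hR' _ hp.2]; exact R.map_source hp.2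
    constructor
    · rintro ⟨g, hg, he⟩
      refine ⟨g ∘ R.symm, ?_, ?_⟩
      · have h1 : R.symm (Ψ (κ p)) = κ p := by rw [hR' _ hp.2]; exact R.left_inv hp.2
        refine AnalyticAt.comp ?_ (hsy _ hmt)
        exact (congrArg (AnalyticAt ℂ g) h1).mpr hg
      · filter_upwards [he, hev] with q hq hs
        have h1 : R.symm (Ψ (κ q)) = κ q := by rw [hR' _ hs]; exact R.left_inv hs
        have h2 : (g ∘ R.symm) (Ψ (κ q)) = g (κ q) := congrArg g h1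
        exact hq.trans h2.symm
    · rintro ⟨G, hG, he⟩
      exact ⟨G ∘ Ψ, AnalyticAt.comp (g := G) (f := Ψ) (x := κ p) hG hΨp, he⟩

end Vale.Agent.P273.H183

end
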