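import Mathlib

/-!
Families of stable curves with marked points over open subsets of `ℂ^m`, natural differential forms
on all such families (= differential forms on the moduli stack), and the families of the strata with
rational vertices. Everything here is a definition (DRAFT).
-/

noncomputable section

namespace Vale.Agent.P273.H183

open Set Filter Sum
open scoped Topology ContDiff

/-- `U` with the functions `x`, `y`, `t` is a chart: `x y = t(b)`, the map `(π, x, y)` is a
homeomorphism of `U` onto an open part of `{(b, x, y) | x y = t(b)}`, `t` is holomorphic, and the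
holomorphic functions (`hol f p`: the function `f` is holomorphic at `p`) are the restrictions of
the holomorphic functions of `(b, x, y)`. A point with `x = y = 0` is a node of its fibre. -/
def IsChart {X : Type} [TopologicalSpace X] {m : ℕ} (π : X → Fin m → ℂ)
    (hol : (X → ℂ) → X → Prop) (U : Set X) (x y : X → ℂ) (t : (Fin m → ℂ) → ℂ) : Prop :=
  IsOpen U ∧ (∀ p ∈ U, AnalyticAt ℂ t (π p)) ∧ InjOn (fun p => (π p, x p, y p)) U ∧
  (∀ V ⊆ U, IsOpen V ↔ ∃ W : Set ((Fin m → ℂ) × ℂ × ℂ), IsOpen W ∧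
    (fun p => (π p, x p, y p)) '' V = {w ∈ W | w.2.1 * w.2.2 = t w.1}) ∧
  ∀ p ∈ U, ∀ f, hol f p ↔ ∃ g : (Fin m → ℂ) × ℂ × ℂ → ℂ,
    AnalyticAt ℂ g (π p, x p, y p) ∧ ∀ᶠ q in 𝓝 p, f q = g (π q, x q, y q)

/-- The data of a family of curves with marked points indexed by `L`, over a part `B` of `ℂ^m`. -/
structure Fam (L : Type) (m : ℕ) where
  /-- The base. -/
  B : Set (Fin m → ℂ)
  /-- The total space. -/
  X : Type
  [top : TopologicalSpace X]
  /-- The projection to the base. -/
  π : X → Fin m → ℂ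
  /-- `hol f p`: the function `f` is holomorphic at the point `p`. -/
  hol : (X → ℂ) → X → Prop
  /-- The marked points. -/
  s : L → (Fin m → ℂ) → X

attribute [instance] Fam.top

variable {L V E : Type} {m k : ℕ}

/-- The fibre. -/
def Fam.fib (C : Fam L m) (b : Fin m → ℂ) : Set C.X := {p | C.π p = b}

/-- `D` is a holomorphic vector field (a derivation of the holomorphic functions) on the fibre over
`b` that vanishes at the marked points. -/
def Fam.IsField (C : Fam L m) (b : Fin m → ℂ) (D : (C.X → ℂ) → C.X → ℂ) : Prop :=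
  (∀ p ∈ C.fib b, ∀ f g, C.hol f p → C.hol g p →
    D (f + g) p = D f p + D g p ∧ D (f * g) p = f p * D g p + g p * D f p ∧
    (f =ᶠ[𝓝[C.fib b] p] g → D f p = D g p) ∧
    ∃ h, C.hol h p ∧ D f =ᶠ[𝓝[C.fib b] p] h) ∧
  (∀ p ∈ C.fib b, ∀ c : ℂ, D (fun _ => c) p = 0) ∧
  ∀ i f, C.hol f (C.s i b) → D f (C.s i b) = 0

/-- `C` is a family of stable curves with marked points: `B` is open, the total space is Hausdorff,
the projection is proper and every point is in a chart; the marked points are holomorphic sections,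
disjoint and not at nodes; the fibres are connected and have no holomorphic vector fields that
vanish at the marked points. -/
def Fam.IsStable (C : Fam L m) : Prop :=
  IsOpen C.B ∧ T2Space C.X ∧ (∀ p, C.π p ∈ C.B) ∧
  (∀ K ⊆ C.B, IsCompact K → IsCompact (C.π ⁻¹' K)) ∧
  (∀ p, ∃ U x y t, p ∈ U ∧ IsChart C.π C.hol U x y t) ∧
  (∀ b ∈ C.B, IsConnected (C.fib b) ∧
    (∀ i, C.π (C.s i b) = b ∧ ContinuousAt (C.s i) b ∧
      (∀ f, C.hol f (C.s i b) → AnalyticAt ℂ (fun b' => f (C.s i b')) b) ∧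
      (∀ j, C.s i b = C.s j b → i = j) ∧
      ∀ U x y t, IsChart C.π C.hol U x y t → C.s i b ∈ U → x (C.s i b) ≠ 0 ∨ y (C.s i b) ≠ 0) ∧
    ∀ D, C.IsField b D → ∀ p ∈ C.fib b, ∀ f, C.hol f p → D f p = 0)

/-- `(φ, Φ)` is a morphism of families from `C'` to `C`: `C'` is the pullback of `C` by `φ`. -/
def IsMor {m m' : ℕ} (C' : Fam L m') (C : Fam L m) (φ : (Fin m' → ℂ) → Fin m → ℂ)
    (Φ : C'.X → C.X) : Prop :=
  (∀ b ∈ C'.B, φ b ∈ C.B ∧ AnalyticAt ℂ φ b ∧ BijOn Φ (C'.fib b) (C.fib (φ b)) ∧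
    ∀ i, Φ (C'.s i b) = C.s i (φ b)) ∧
  Continuous Φ ∧ ∀ f p, C.hol f (Φ p) → C'.hol (fun q => f (Φ q)) p

/-- `F` is a natural closed differential form of degree `k` on families of stable curves with
marked points in `L`, i.e. a closed differential form on the moduli stack. -/
def IsClosedForm (L : Type) (k : ℕ)
    (F : ∀ m, Fam L m → (Fin m → ℂ) → (Fin m → ℂ) [⋀^Fin k]→L[ℝ] ℝ) : Prop :=
  (∀ m (C : Fam L m), C.IsStable →
    ContDiffOn ℝ ∞ (F m C) C.B ∧ ∀ b ∈ C.B, extDeriv (F m C) b = 0) ∧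
  ∀ m m' (C : Fam L m) (C' : Fam L m') φ Φ, C.IsStable → C'.IsStable → IsMor C' C φ Φ →
    ∀ b ∈ C'.B, F m' C' b = (F m C (φ b)).compContinuousLinearMap (fderiv ℝ φ b)

/-- The coordinate at infinity of the projective line. -/
def inf (w : ℂ) : OnePoint ℂ := if w = 0 then OnePoint.infty else (w⁻¹ : ℂ)

open Classical in
/-- `C` is the family of the open stratum of the graph `h` with vertices `V`, all of them rational,
edges `E` and legs `L` (`h` is the vertex of a half-edge or leg): the fibres are obtained from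
projective lines by gluing points of the components (`z y b` is the position of the half-edge or leg
`y`, `ν` the normalization), and `B` is bijective to the set of all configurations of distinct
points on the components up to Möbius transformations. -/
def IsStratum (h : (E × Bool) ⊕ L → V) (C : Fam L m) : Prop :=
  ∃ (z : (E × Bool) ⊕ L → (Fin m → ℂ) → OnePoint ℂ) (ν : V → (Fin m → ℂ) → OnePoint ℂ → C.X),
    (∀ b ∈ C.B,
      (∀ y, ∃ g, AnalyticAt ℂ g b ∧ ((∀ᶠ b' in 𝓝 b, z y b' = (g b' : ℂ)) ∨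
        ∀ᶠ b' in 𝓝 b, z y b' = inf (g b'))) ∧
      (∀ y y', h y = h y' → z y b = z y' b → y = y') ∧
      (∀ v w, C.π (ν v b w) = b) ∧
      (∀ v (w : ℂ) f, C.hol f (ν v b w) →
        AnalyticAt ℂ (fun u : (Fin m → ℂ) × ℂ => f (ν v u.1 (u.2 : ℂ))) (b, w)) ∧
      (∀ v f, C.hol f (ν v b OnePoint.infty) →
        AnalyticAt ℂ (fun u : (Fin m → ℂ) × ℂ => f (ν v u.1 (inf u.2))) (b, 0)) ∧
      (∀ p ∈ C.fib b, ∃ v w, ν v b w = p) ∧
      (∀ v v' w w', ν v b w = ν v' b w' ↔ v = v' ∧ w = w' ∨ ∃ e s,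
        (v = h (inl (e, s)) ∧ w = z (inl (e, s)) b) ∧
          v' = h (inl (e, !s)) ∧ w' = z (inl (e, !s)) b) ∧
      ∀ x, C.s x b = ν (h (inr x)) b (z (inr x) b)) ∧
    (∀ v, ContinuousOn (fun u : (Fin m → ℂ) × OnePoint ℂ => ν v u.1 u.2) (C.B ×ˢ univ)) ∧
    ∀ w : (E × Bool) ⊕ L → OnePoint ℂ, (∀ y y', h y = h y' → w y = w y' → y = y') →
      ∃! b, b ∈ C.B ∧ ∃ M : V → Matrix.GeneralLinearGroup (Fin 2) ℂ,
        ∀ y, M (h y) • z y b = w y

/-- The density of a differential form of top degree with respect to Lebesgue measure (the basis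
is `e_0, i e_0, e_1, i e_1, ...`). -/
def dens (F : (Fin m → ℂ) → (Fin m → ℂ) [⋀^Fin (m * 2)]→L[ℝ] ℝ) (b : Fin m → ℂ) : ℝ :=
  F b fun a => Pi.single a.divNat (if a.modNat = 0 then 1 else Complex.I)

end Vale.Agent.P273.H183

end
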