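import Vale.Agent.P273.H948.State
import Vale.Agent.P273.H469.Bub

/-! Shrinking of states. -/

noncomputable section

open Set Filter Topology

namespace Vale.Agent.P273.H183

open Vale.Agent.P273.H948 Vale.Agent.P273.H469

variable {m : ℕ} {X₀ : Surf m} {L : Type} {P : L → (Fin m → ℂ) → X₀.X} {A : Set L}

theorem smoothAt_of_restrict {S : Surf m} {O : Set S.X} {hO : IsOpen O}
    {x : (S.restrict O hO).X} (h : (S.restrict O hO).SmoothAt x) : S.SmoothAt (Surf.inc x) :=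
  smoothAt_image Surf.inc_emb (fun _ => rfl) (fun x g => (Surf.restrict_hol_comp x g).symm) h

/-- Shrinking of a state so that an open condition holds on the whole base. -/
theorem st_exists_shrink (σ : State X₀ P A) {c : Fin m → ℂ} (hc : c ∈ σ.F.B)
    {p : (Fin m → ℂ) → Prop} (hp : ∀ᶠ b in 𝓝 c, p b) :
    ∃ (B' : Set (Fin m → ℂ)) (hB' : IsOpen B') (hB : B' ⊆ σ.F.B)
      (_ : (σ.F.shrink B' hB' hB).S.X), c ∈ B' ∧ ∀ b ∈ B', p b := by
  obtain ⟨B', h1, h2, h3⟩ := eventually_nhds_iff.1 (hp.and (σ.F.openB.mem_nhds hc))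
  have hB : B' ⊆ σ.F.B := fun b hb => (h1 b hb).2
  obtain ⟨x, hx⟩ := ((σ.F.shrink B' h2 hB).conn c h3).nonempty
  exact ⟨B', h2, hB, x, h3, fun b hb => (h1 b hb).1⟩

/-- The positions are continuous. -/
theorem st_cont (σ : State X₀ P A) {c : Fin m → ℂ} (hc : c ∈ σ.F.B) (k : L) :
    ContinuousAt (σ.s k) c := (σ.sec k c hc).2.1

theorem st_ev_smooth (σ : State X₀ P A) {c : Fin m → ℂ} (hc : c ∈ σ.F.B) {k : L}
    (h : σ.F.S.SmoothAt (σ.s k c)) : ∀ᶠ b in 𝓝 c, σ.F.S.SmoothAt (σ.s k b) :=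
  (st_cont σ hc k).eventually (σ.F.S.smoothAt_open.mem_nhds h)

theorem st_ev_ne (σ : State X₀ P A) {c : Fin m → ℂ} (hc : c ∈ σ.F.B) {k l : L}
    (h : σ.s k c ≠ σ.s l c) : ∀ᶠ b in 𝓝 c, σ.s k b ≠ σ.s l b :=
  ((st_cont σ hc k).prodMk (st_cont σ hc l)).eventually
    ((isClosed_diagonal.isOpen_compl).mem_nhds h)

end Vale.Agent.P273.H183
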