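import Vale.Agent.P273.H183.IntInst
import Vale.Agent.P273.H724.StartField
import Vale.Agent.P273.H949.Stable
import Vale.Agent.P273.H768.Word

/-! The family of the curves `y ^ 2 = f(x)` has no vector fields; the marks near an interior point
are in good position. -/

noncomputable section

namespace Vale.Agent.P273.H183

open Set Filter Topology
open Vale.Agent.P273.H948 (Surf PFam IsModel IsSec State)
open Vale.Agent.P273.H949 (NoFld IsFld QStab)
open Vale.Agent.P273.H768 (Lab Good Sm)

set_option linter.unusedSectionVars false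

section

variable {m : ℕ} {B : Set (Fin m → ℂ)} {a : (Fin m → ℂ) → Fin 6 → ℂ}

/-- The family of the curves `y ^ 2 = f(x)` has no vector fields. -/
theorem noFld_start (hB : IsOpen B) (ha : ∀ b ∈ B, AnalyticAt ℂ a b) (hK : ∀ b ∈ B, a b ∈ K6)
    {b : Fin m → ℂ} (hb : b ∈ B) : NoFld (startS B a hB ha hK) b ∅ := by
  intro D hD p hp f hf
  refine H724.start_field (L := Empty) hK b hb D ⟨hD.1, hD.2.1, fun i => i.elim⟩ p hp f hf

end

variable {n : ℕ} {L : Type} [Fintype L]
  {κ : (Fin n → ℂ) ≃L[ℂ] (Fin 6 → ℂ) × (L → ℂ)} {S : L → Bool}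
  {W : Set (Fin n → ℂ)} {V : L → (Fin n → ℂ) → ℂ}

theorem Loc.qstab (D : Loc κ S W V) [Nonempty (tot W (ea κ))] : QStab D.st :=
  QStab.init fun _ hb => noFld_start D.opn (fun b _ => an_ea b) D.k6 hb

/-- Good position at an interior point. -/
theorem Loc.good (D : Loc κ S W V) [Nonempty (tot W (ea κ))] {c : Fin n → ℂ} (hc : c ∈ W)
    (Λ : Lab L n) (hsep : ∀ i j, i ≠ j → Λ.typ i = Λ.typ j →
      ¬ SameP (S i) (za κ i c) (V i c) (S j) (za κ j c) (V j c)) :
    Good Λ D.st.F.S D.st.r D.st.s c := by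
  intro j
  refine Or.inl ⟨D.smooth j hc, fun i hi e ht => ?_⟩
  exact hsep i j hi ht ((D.Ps_eq_iff i j hc).1 e)

end Vale.Agent.P273.H183

end
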