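import Vale.Agent.P273.H183.Open
import Vale.Agent.P273.H948.State

/-! The marks of the family of the curves `y ^ 2 = f(x)` in all charts, near an interior point. -/

noncomputable section

namespace Vale.Agent.P273.H183

open Set Filter
open scoped Topology
open Vale.Agent.P273.H948 (Surf PFam IsModel IsSec State)

set_option linter.unusedSectionVars false

variable {n : ℕ} {L : Type} [Fintype L]

/-- The polynomial in the chart `s` (`s = true`: near infinity). -/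
def polS (s : Bool) (a : Fin 6 → ℂ) (z : ℂ) : ℂ := if s then sw a z else sx a z

/-- The points `(z, v)` in the chart `s` and `(z', v')` in the chart `s'` are equal. -/
def SameP (s : Bool) (z v : ℂ) (s' : Bool) (z' v' : ℂ) : Prop :=
  if s = s' then z = z' ∧ v = v' else z * z' = 1 ∧ v' = v * z' ^ 3

/-- Local data at an interior point: the base `W` and the branches `V j`. -/
structure Loc (κ : (Fin n → ℂ) ≃L[ℂ] (Fin 6 → ℂ) × (L → ℂ)) (S : L → Bool)
    (W : Set (Fin n → ℂ)) (V : L → (Fin n → ℂ) → ℂ) : Prop where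
  opn : IsOpen W
  k6 : ∀ b ∈ W, (κ b).1 ∈ K6
  an : ∀ j, ∀ b ∈ W, AnalyticAt ℂ (V j) b
  sq : ∀ j, ∀ b ∈ W, V j b ^ 2 = polS (S j) (κ b).1 ((κ b).2 j)
  ne : ∀ j, ∀ b ∈ W, V j b ≠ 0

variable {κ : (Fin n → ℂ) ≃L[ℂ] (Fin 6 → ℂ) × (L → ℂ)} {S : L → Bool}
  {W : Set (Fin n → ℂ)} {V : L → (Fin n → ℂ) → ℂ}

/-- The coefficients. -/
def ea (κ : (Fin n → ℂ) ≃L[ℂ] (Fin 6 → ℂ) × (L → ℂ)) (b : Fin n → ℂ) : Fin 6 → ℂ := (κ b).1

/-- The positions. -/
def za (κ : (Fin n → ℂ) ≃L[ℂ] (Fin 6 → ℂ) × (L → ℂ)) (j : L) (b : Fin n → ℂ) : ℂ := (κ b).2 j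

theorem an_ea (b : Fin n → ℂ) : AnalyticAt ℂ (ea κ) b := by
  have h : AnalyticAt ℂ (fun b => κ b) b :=
    ContinuousLinearMap.analyticAt (κ : (Fin n → ℂ) →L[ℂ] (Fin 6 → ℂ) × (L → ℂ)) b
  exact AnalyticAt.comp (g := Prod.fst) analyticAt_fst h

theorem an_za (j : L) (b : Fin n → ℂ) : AnalyticAt ℂ (za κ j) b := by
  have h : AnalyticAt ℂ (fun b => κ b) b :=
    ContinuousLinearMap.analyticAt (κ : (Fin n → ℂ) →L[ℂ] (Fin 6 → ℂ) × (L → ℂ)) b
  have h2 : AnalyticAt ℂ (fun b => (κ b).2) b := AnalyticAt.comp (g := Prod.snd) analyticAt_snd h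
  exact ((ContinuousLinearMap.proj (R := ℂ) (φ := fun _ : L => ℂ) j).analyticAt _).comp h2

theorem an_pol (j : L) (s : Bool) (b : Fin n → ℂ) :
    AnalyticAt ℂ (fun b => polS s (ea κ b) (za κ j b)) b := by
  cases s
  · exact analyticAt_sx (an_ea (κ := κ) b) analyticAt_id rfl (an_za j b)
  · exact analyticAt_sw (an_ea (κ := κ) b) analyticAt_id rfl (an_za j b)

/-- Existence of local data. -/
theorem exists_loc (κ : (Fin n → ℂ) ≃L[ℂ] (Fin 6 → ℂ) × (L → ℂ)) (S : L → Bool) {c : Fin n → ℂ}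
    {v : L → ℂ} (hK : (κ c).1 ∈ K6) (hv : ∀ j, v j ^ 2 = polS (S j) (κ c).1 ((κ c).2 j))
    (h0 : ∀ j, v j ≠ 0) :
    ∃ W V, Loc κ S W V ∧ c ∈ W ∧ ∀ j, V j c = v j := by
  have h1 : ∀ j, ∃ r : (Fin n → ℂ) → ℂ, AnalyticAt ℂ r c ∧ r c = v j ∧
      ∀ᶠ b in 𝓝 c, r b ^ 2 = polS (S j) (ea κ b) (za κ j b) :=
    fun j => exists_sqrt_at (an_pol j (S j) c) (hv j) (h0 j)
  choose V hV1 hV2 hV3 using h1
  have hK' : ∀ᶠ b in 𝓝 c, ea κ b ∈ K6 :=
    (an_ea (κ := κ) c).continuousAt.eventually (isOpen_K6.mem_nhds hK)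
  have hall : ∀ᶠ b in 𝓝 c, ∀ j, AnalyticAt ℂ (V j) b ∧
      V j b ^ 2 = polS (S j) (ea κ b) (za κ j b) ∧ V j b ≠ 0 := by
    rw [eventually_all]
    intro j
    filter_upwards [(hV1 j).eventually_analyticAt, hV3 j,
      (hV1 j).continuousAt.eventually_ne (by rw [hV2]; exact h0 j)] with b g1 g2 g3
    exact ⟨g1, g2, g3⟩
  obtain ⟨W, h2, h3, h4⟩ := eventually_nhds_iff.1 (hK'.and hall)
  exact ⟨W, V, ⟨h3, fun b hb => (h2 b hb).1, fun j b hb => ((h2 b hb).2 j).1,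
    fun j b hb => ((h2 b hb).2 j).2.1, fun j b hb => ((h2 b hb).2 j).2.2⟩, h4, hV2⟩

/-- The positions of the marks. -/
def Ps (W : Set (Fin n → ℂ)) (κ : (Fin n → ℂ) ≃L[ℂ] (Fin 6 → ℂ) × (L → ℂ)) (S : L → Bool)
    (V : L → (Fin n → ℂ) → ℂ) [Nonempty (tot W (ea κ))] (j : L) (b : Fin n → ℂ) : tot W (ea κ) :=
  if S j then secF (za κ j) (V j) b else secA (za κ j) (V j) b

namespace Loc

variable (D : Loc κ S W V)
include D

/-- The family. -/
def F : PFam n := startP W (ea κ) D.opn (fun b _ => an_ea b) D.k6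

theorem F_B : D.F.B = W := rfl

theorem nonempty {c : Fin n → ℂ} (hc : c ∈ W) : Nonempty (tot W (ea κ)) :=
  ⟨((D.F.conn c hc).nonempty).some⟩

theorem mem_aff {j : L} (hj : S j = false) {b : Fin n → ℂ} (hb : b ∈ W) :
    (b, za κ j b, V j b) ∈ Zaff W (ea κ) := by
  refine ⟨hb, ?_⟩
  have := D.sq j b hb
  rw [polS, hj] at this
  exact this

theorem mem_far {j : L} (hj : S j = true) {b : Fin n → ℂ} (hb : b ∈ W) :
    (b, za κ j b, V j b) ∈ Zfar W (ea κ) := by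
  refine ⟨hb, ?_⟩
  have := D.sq j b hb
  rw [polS, hj] at this
  exact this

variable [Nonempty (tot W (ea κ))]

theorem Ps_aff {j : L} (hj : S j = false) {b : Fin n → ℂ} (hb : b ∈ W) :
    Ps W κ S V j b = pA b (za κ j b) (V j b) (D.mem_aff hj hb) := by
  rw [Ps, hj]; exact secA_eq (D.mem_aff hj hb)

theorem Ps_far {j : L} (hj : S j = true) {b : Fin n → ℂ} (hb : b ∈ W) :
    Ps W κ S V j b = pF b (za κ j b) (V j b) (D.mem_far hj hb) := by
  rw [Ps, hj]; exact secF_eq (D.mem_far hj hb)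

theorem isSec (j : L) : IsSec D.F.S W (Ps W κ S V j) := by
  rcases hj : S j with _ | _
  · have : Ps W κ S V j = secA (za κ j) (V j) := by funext b; rw [Ps, hj]; rfl
    rw [this]
    exact isSec_secA D.opn (fun b _ => an_ea b) D.k6 D.opn subset_rfl (fun b _ => an_za j b) (D.an j)
      (fun b hb => (D.mem_aff hj hb).2)
  · have : Ps W κ S V j = secF (za κ j) (V j) := by funext b; rw [Ps, hj]; rfl
    rw [this]
    exact isSec_secF D.opn (fun b _ => an_ea b) D.k6 D.opn subset_rfl (fun b _ => an_za j b) (D.an j)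
      (fun b hb => (D.mem_far hj hb).2)

theorem smooth (j : L) {b : Fin n → ℂ} (hb : b ∈ W) :
    (startS W (ea κ) D.opn (fun b _ => an_ea b) D.k6).SmoothAt (Ps W κ S V j b) := by
  rcases hj : S j with _ | _
  · rw [D.Ps_aff hj hb]
    refine smooth_aff D.opn (fun b _ => an_ea b) D.k6 (ptA_mem _) (Or.inl ?_)
    change (cA (ptA _)).2.2 ≠ 0
    rw [cA_ptA]
    exact D.ne j b hb
  · rw [D.Ps_far hj hb]
    refine smooth_far D.opn (fun b _ => an_ea b) D.k6 (ptF_mem _) ?_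
    change (cF (ptF _)).2.2 ≠ 0
    rw [cF_ptF]
    exact D.ne j b hb

/-- When two marks coincide. -/
theorem Ps_eq_iff (i j : L) {b : Fin n → ℂ} (hb : b ∈ W) : Ps W κ S V i b = Ps W κ S V j b ↔
    SameP (S i) (za κ i b) (V i b) (S j) (za κ j b) (V j b) := by
  have key : ∀ (z : Zaff W (ea κ)) (z' : Zfar W (ea κ)), ptA z = ptF z' ↔
      z.1.1 = z'.1.1 ∧ z.1.2.1 * z'.1.2.1 = 1 ∧ z'.1.2.2 = z.1.2.2 * z'.1.2.1 ^ 3 := by
    rintro ⟨⟨b, x, y⟩, hz⟩ ⟨⟨b', w, u⟩, hz'⟩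
    simp only
    constructor
    · intro e
      have hA : ptA ⟨(b, x, y), hz⟩ ∈ (aff : Set (tot W (ea κ))) := ptA_mem _
      have hF : ptA ⟨(b, x, y), hz⟩ ∈ (far : Set (tot W (ea κ))) := e ▸ ptF_mem _
      have h0 : x ≠ 0 := by
        have := (far_iff hA).1 hF
        rw [xC, cA_ptA] at this
        exact this
      have h1 := cF_eq_tr hA hF
      rw [cA_ptA, e, cF_ptF] at h1
      simp only [tr, Prod.mk.injEq] at h1
      obtain ⟨h2, h3, h4⟩ := h1
      refine ⟨h2.symm, ?_, ?_⟩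
      · rw [h3, mul_inv_cancel₀ h0]
      · rw [h3, h4]; field_simp
    · rintro ⟨rfl, h1, h2⟩
      have h0 : x ≠ 0 := left_ne_zero_of_mul_eq_one h1
      have h3 : w = x⁻¹ := by rw [eq_comm]; exact inv_eq_of_mul_eq_one_right h1
      have h4 : tr (b, x, y) = (b, w, u) := by
        simp only [tr]
        rw [h2, h3]
        refine Prod.ext rfl (Prod.ext rfl ?_)
        simp only
        field_simp
      apply Subtype.ext
      change emb (b, x, y) = emb' (b, w, u)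
      rw [← h4, emb'_tr h0]
  rcases hi : S i with _ | _ <;> rcases hj : S j with _ | _
  · rw [D.Ps_aff hi hb, D.Ps_aff hj hb, pA_inj]
    simp [SameP]
  · rw [D.Ps_aff hi hb, D.Ps_far hj hb, pA, pF, key]
    simp [SameP]
  · rw [D.Ps_far hi hb, D.Ps_aff hj hb, eq_comm, pA, pF, key]
    simp only [SameP, true_and]
    have h1 := D.ne i b hb
    constructor
    · rintro ⟨h2, h3⟩
      have h4 := left_ne_zero_of_mul_eq_one h2
      have h5 := right_ne_zero_of_mul_eq_one h2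
      refine ⟨by rw [mul_comm]; exact h2, ?_⟩
      rw [h3]
      have : za κ i b ^ 3 * za κ j b ^ 3 = 1 := by
        rw [← mul_pow, mul_comm, h2, one_pow]
      rw [mul_assoc, this, mul_one]
    · rintro ⟨h2, h3⟩
      refine ⟨by rw [mul_comm]; exact h2, ?_⟩
      rw [h3]
      have : za κ j b ^ 3 * za κ i b ^ 3 = 1 := by
        rw [← mul_pow, mul_comm, h2, one_pow]
      rw [mul_assoc, this, mul_one]
  · rw [D.Ps_far hi hb, D.Ps_far hj hb, pF_inj]
    simp [SameP]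

/-- The initial state. -/
def st : State D.F.S (Ps W κ S V) ∅ := State.init D.F (Ps W κ S V) D.isSec

end Loc

end Vale.Agent.P273.H183

end
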