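import Vale.Agent.P273.H183.StartP

/-! The sextics without triple roots form an open set; local branches of the square root. -/

noncomputable section

namespace Vale.Agent.P273.H183

open Set Filter
open scoped Topology

theorem norm_root_le {a : Fin 6 → ℂ} {x : ℂ} (h : sx a x = 0) :
    ‖x‖ ≤ 1 + ∑ i, ‖a i‖ := by
  by_contra hc
  rw [not_le] at hc
  have hS : 0 ≤ ∑ i, ‖a i‖ := Finset.sum_nonneg fun i _ => norm_nonneg _
  have h1 : 1 < ‖x‖ := by linarith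
  have h2 : x ^ 6 = -(a 5 * x ^ 5 + a 4 * x ^ 4 + a 3 * x ^ 3 + a 2 * x ^ 2 + a 1 * x + a 0) := by
    simp only [sx] at h
    linear_combination h
  have hp (k : ℕ) (hk : k ≤ 5) : ‖x‖ ^ k ≤ ‖x‖ ^ 5 := pow_le_pow_right₀ h1.le hk
  have h3 : ‖x‖ ^ 6 ≤ (∑ i, ‖a i‖) * ‖x‖ ^ 5 := by
    rw [← norm_pow, h2, norm_neg]
    have e : (∑ i, ‖a i‖) * ‖x‖ ^ 5 = ‖a 5‖ * ‖x‖ ^ 5 + ‖a 4‖ * ‖x‖ ^ 5 + ‖a 3‖ * ‖x‖ ^ 5 +
        ‖a 2‖ * ‖x‖ ^ 5 + ‖a 1‖ * ‖x‖ ^ 5 + ‖a 0‖ * ‖x‖ ^ 5 := by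
      rw [Fin.sum_univ_six]; ring
    rw [e]
    have g (c : ℂ) (k : ℕ) (hk : k ≤ 5) : ‖c * x ^ k‖ ≤ ‖c‖ * ‖x‖ ^ 5 := by
      rw [norm_mul, norm_pow]
      exact mul_le_mul_of_nonneg_left (hp k hk) (norm_nonneg _)
    have g1 : ‖a 1 * x‖ ≤ ‖a 1‖ * ‖x‖ ^ 5 := by simpa using g (a 1) 1 (by norm_num)
    have g0 : ‖a 0‖ ≤ ‖a 0‖ * ‖x‖ ^ 5 := by simpa using g (a 0) 0 (by norm_num)
    refine (norm_add_le _ _).trans (add_le_add ?_ g0)
    refine (norm_add_le _ _).trans (add_le_add ?_ g1)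
    refine (norm_add_le _ _).trans (add_le_add ?_ (g _ 2 (by norm_num)))
    refine (norm_add_le _ _).trans (add_le_add ?_ (g _ 3 (by norm_num)))
    exact (norm_add_le _ _).trans (add_le_add (g _ 5 (by norm_num)) (g _ 4 (by norm_num)))
  have h4 : 0 < ‖x‖ ^ 5 := by positivity
  have h5 : ‖x‖ ≤ ∑ i, ‖a i‖ := by
    have : ‖x‖ * ‖x‖ ^ 5 ≤ (∑ i, ‖a i‖) * ‖x‖ ^ 5 := by
      calc ‖x‖ * ‖x‖ ^ 5 = ‖x‖ ^ 6 := by ring
        _ ≤ _ := h3
    exact le_of_mul_le_mul_right this h4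
  linarith

theorem isOpen_K6 : IsOpen K6 := by
  rw [← isClosed_compl_iff]
  refine IsSeqClosed.isClosed ?_
  intro u a hu ha
  have h1 : ∀ n, ∃ x, sx (u n) x = 0 ∧ sx1 (u n) x = 0 ∧ hx (u n) x x = 0 := by
    intro n
    have := hu n
    simp only [K6, mem_compl_iff, mem_ofPred_eq, not_forall, not_not] at this
    obtain ⟨x, h1, h2, h3⟩ := this
    exact ⟨x, h1, h2, h3⟩
  choose x hx0 hx1 hx2 using h1
  have h2 : Tendsto (fun n => ∑ i, ‖u n i‖) atTop (𝓝 (∑ i, ‖a i‖)) :=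
    tendsto_finsetSum _ fun i _ => ((tendsto_pi_nhds.1 ha i).norm)
  obtain ⟨R, hR⟩ := h2.bddAbove_range
  have hb : ∀ n, x n ∈ Metric.closedBall (0 : ℂ) (1 + R) := by
    intro n
    rw [mem_closedBall_zero_iff]
    have := hR (mem_range_self n)
    have h3 := norm_root_le (hx0 n)
    linarith
  obtain ⟨y, -, φ, hφ, hy⟩ := (isCompact_closedBall (0 : ℂ) (1 + R)).tendsto_subseq hb
  have ha' : Tendsto (u ∘ φ) atTop (𝓝 a) := ha.comp hφ.tendsto_atTop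
  have hp : Tendsto (fun n => (u (φ n), x (φ n))) atTop (𝓝 (a, y)) := ha'.prodMk_nhds hy
  have c0 : Continuous fun z : (Fin 6 → ℂ) × ℂ => sx z.1 z.2 := by unfold sx; fun_prop
  have c1 : Continuous fun z : (Fin 6 → ℂ) × ℂ => sx1 z.1 z.2 := by unfold sx1; fun_prop
  have c2 : Continuous fun z : (Fin 6 → ℂ) × ℂ => hx z.1 z.2 z.2 := by unfold hx; fun_prop
  have e0 : sx a y = 0 := tendsto_nhds_unique ((c0.tendsto (a, y)).comp hp)
    (tendsto_const_nhds.congr fun n => (hx0 (φ n)).symm)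
  have e1 : sx1 a y = 0 := tendsto_nhds_unique ((c1.tendsto (a, y)).comp hp)
    (tendsto_const_nhds.congr fun n => (hx1 (φ n)).symm)
  have e2 : hx a y y = 0 := tendsto_nhds_unique ((c2.tendsto (a, y)).comp hp)
    (tendsto_const_nhds.congr fun n => (hx2 (φ n)).symm)
  intro hK
  exact hK y e0 e1 e2

/-- A local branch of the square root with the given value. -/
theorem exists_sqrt_at {A : Type*} [NormedAddCommGroup A] [NormedSpace ℂ A] {H : A → ℂ} {z₀ : A}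
    (hH : AnalyticAt ℂ H z₀) {v : ℂ} (hv : v ^ 2 = H z₀) (h0 : v ≠ 0) :
    ∃ r : A → ℂ, AnalyticAt ℂ r z₀ ∧ r z₀ = v ∧ ∀ᶠ z in 𝓝 z₀, r z ^ 2 = H z := by
  obtain ⟨r, h1, h2, h3⟩ := exists_sqrt hH (by rw [← hv]; exact pow_ne_zero 2 h0)
  have e : r z₀ ^ 2 = v ^ 2 := by rw [h3.self_of_nhds, hv]
  rcases sq_eq_sq_iff_eq_or_eq_neg.1 e with h | h
  · exact ⟨r, h1, h, h3⟩
  · refine ⟨fun z => -r z, h1.neg, by simp [h], ?_⟩
    filter_upwards [h3] with z hz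
    rw [neg_sq, hz]

end Vale.Agent.P273.H183

end
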