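import Vale.Agent.P273.H183.RealInt
import Vale.Agent.P273.H888.Real

/-! The family near an interior point of the space of curves with marks. -/

noncomputable section

namespace Vale.Agent.P273.H183

open Set Filter Topology
open Vale.Agent.P273.H95 (E L OnC Sep Same pol)
open Vale.Agent.P273.H680 (k20)
open Vale.Agent.P273.H888 (posP Real)

/-- **(A1)** The stable family near an interior point, for every branch of the second coordinates
of the marks. -/
theorem real_int {S : L → Bool} {e : E} {v : L → ℂ} (hK : e.1 ∈ H95.K6) (hv : OnC S e.1 e.2 v)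
    (hS : Sep S e.2 v) {sg : E → L → ℂ} (han : ∀ j, AnalyticAt ℂ (fun p => sg p j) e)
    (h0 : sg e = v) (hsq : ∀ᶠ p in 𝓝 e, ∀ j, sg p j ^ 2 = pol (S j) p.1 (p.2 j)) :
    ∃ C : Fam L 20, Real k20 id S sg C ∧ k20.symm e ∈ C.B := by
  obtain ⟨W, D, hW⟩ := loc_of_branch hK hv han h0 hsq
  have hne : Nonempty (tot W (ea k20)) := D.nonempty hW
  obtain ⟨C, h1, h2, h3, r, hr⟩ := D.exists_ctr hW Prod.snd fun i j hij ht h => by
    have h4 : Same (S i) ((k20 (k20.symm e)).2 i) (sg (k20 (k20.symm e)) i) (S j)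
      ((k20 (k20.symm e)).2 j) (sg (k20 (k20.symm e)) j) := h
    rw [k20.apply_symm_apply, h0] at h4
    exact hS i j hij ht h4
  refine ⟨C, ⟨h3, ⟨W, D.opn, fun b _ => an_ea b, D.k6, hne, r, h2, hr⟩,
    fun j b _ => an_za j b, fun j b hb => D.an j b (h2 hb), fun j b hb => ?_⟩, h1⟩
  have := D.sq j b (h2 hb)
  rwa [polS_eq] at this

end Vale.Agent.P273.H183

end
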