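import Vale.Agent.P273.H183.StartP
import Vale.Agent.P273.H724.StartField

/-! The family of the curves `y ^ 2 = f(x)` is a family of stable curves. -/

noncomputable section

namespace Vale.Agent.P273.H183

variable {m : ℕ} {B : Set (Fin m → ℂ)} {a : (Fin m → ℂ) → Fin 6 → ℂ}

/-- The family of the curves `y ^ 2 = f(x)`, `f` a monic sextic without triple roots, is stable. -/
theorem start_isStable (L : Type) [IsEmpty L] (hB : IsOpen B) (ha : ∀ b ∈ B, AnalyticAt ℂ a b)
    (hK : ∀ b ∈ B, a b ∈ K6) : (start L B a).IsStable := by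
  refine ⟨hB, (inferInstance : T2Space (tot B a)), fun p => pr_mem p, fun K hK' hc =>
    isCompact_pr (fun b hb => (ha b hb).continuousAt.continuousWithinAt) hK' hc, fun p =>
    start_chart hB ha hK p, fun b hb => ⟨H507.start_conn L hb, fun i => isEmptyElim i, ?_⟩⟩
  exact fun D hD p hp f hf => H724.start_field hK b hb D hD p hp f hf

end Vale.Agent.P273.H183

end
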