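import Vale.Agent.P273.H183.IntGood
import Vale.Agent.P273.H888.PosP
import Vale.Agent.P273.H948.RealOf
import Vale.Agent.P273.H680.X0
import Vale.Agent.P273.H507.Ctr

/-! Admissible families near the interior points. -/

noncomputable section

namespace Vale.Agent.P273.H183

open Set Filter Topology
open Vale.Agent.P273.H95 (E L OnC Sep Same pol)
open Vale.Agent.P273.H680 (k20)
open Vale.Agent.P273.H888 (posP)
open Vale.Agent.P273.H948 (Surf PFam IsModel IsSec State)
open Vale.Agent.P273.H949 (NoFld IsFld QStab)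
open Vale.Agent.P273.H768 (Lab Good Sm)
open Vale.Agent.P273.H507 (Ctr famS ctr_of_state isStable_famS)

theorem polS_eq (s : Bool) (a : Fin 6 → ℂ) (z : ℂ) : polS s a z = pol s a z := by
  cases s
  · rw [H724.pol_false]; rfl
  · rw [H724.pol_true]; rfl

theorem sameP_iff (s : Bool) (z v : ℂ) (s' : Bool) (z' v' : ℂ) :
    SameP s z v s' z' v' ↔ Same s z v s' z' v' := Iff.rfl

/-- Local data from a given branch. -/
theorem loc_of_branch {S : L → Bool} {e : E} {v : L → ℂ} (hK : e.1 ∈ H95.K6)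
    (hv : OnC S e.1 e.2 v) {sg : E → L → ℂ} (han : ∀ j, AnalyticAt ℂ (fun p => sg p j) e)
    (h0 : sg e = v) (hsq : ∀ᶠ p in 𝓝 e, ∀ j, sg p j ^ 2 = pol (S j) p.1 (p.2 j)) :
    ∃ W, Loc k20 S W (fun j b => sg (k20 b) j) ∧ k20.symm e ∈ W := by
  have hc : k20 (k20.symm e) = e := k20.apply_symm_apply e
  have hcont : ContinuousAt (fun b => k20 b) (k20.symm e) := k20.continuous.continuousAt
  have hcont' : Tendsto (fun b => k20 b) (𝓝 (k20.symm e)) (𝓝 e) := by
    have := hcont.tendsto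
    rwa [hc] at this
  have hK' : ∀ᶠ b in 𝓝 (k20.symm e), (k20 b).1 ∈ K6 := by
    have h1 : ∀ᶠ p in 𝓝 e, p.1 ∈ K6 :=
      continuousAt_fst.eventually (isOpen_K6.mem_nhds (by rw [← H724.K6_eq]; exact hK))
    exact hcont'.eventually h1
  have hall : ∀ᶠ p in 𝓝 e, ∀ j, AnalyticAt ℂ (fun p => sg p j) p ∧ sg p j ≠ 0 := by
    rw [eventually_all]
    intro j
    filter_upwards [(han j).eventually_analyticAt,
      (han j).continuousAt.eventually_ne (by rw [h0]; exact (hv j).2)] with p g1 g2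
    exact ⟨g1, g2⟩
  obtain ⟨W, h2, h3, h4⟩ := eventually_nhds_iff.1
    (hK'.and (hcont'.eventually (hall.and hsq)))
  refine ⟨W, ⟨h3, fun b hb => (h2 b hb).1, fun j b hb => ?_, fun j b hb => ?_,
    fun j b hb => ((h2 b hb).2.1 j).2⟩, h4⟩
  · exact AnalyticAt.comp (g := fun p => sg p j) (f := fun b => k20 b) ((h2 b hb).2.1 j).1
      (ContinuousLinearMap.analyticAt (k20 : (Fin 20 → ℂ) →L[ℂ] E) b)
  · rw [polS_eq]
    exact (h2 b hb).2.2 j

/-- The types and ranks of the marks at an interior point. -/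
def labI (n : ℕ) : Lab L n where
  typ := Prod.snd
  rk _ := 0
  μ _ _ _ := 1

/-- **(A1)** The stable family near an interior point, with its contraction to the start family. -/
theorem Loc.exists_ctr {n : ℕ} {L : Type} [Fintype L]
    {κ : (Fin n → ℂ) ≃L[ℂ] (Fin 6 → ℂ) × (L → ℂ)} {S : L → Bool}
    {W : Set (Fin n → ℂ)} {V : L → (Fin n → ℂ) → ℂ} [Nonempty (tot W (ea κ))] (D : Loc κ S W V)
    {c : Fin n → ℂ} (hc : c ∈ W) (typ : L → Bool) (hsep : ∀ i j, i ≠ j → typ i = typ j →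
      ¬ SameP (S i) (za κ i c) (V i c) (S j) (za κ j c) (V j c)) :
    ∃ C : Fam L n, c ∈ C.B ∧ C.B ⊆ W ∧ C.IsStable ∧
      ∃ r, Ctr C (startS W (ea κ) D.opn (fun b _ => an_ea b) D.k6)
        (fun j => posP (S j) (za κ j) (V j)) r :=
  H948.exists_ctr_start D.opn (fun b _ => an_ea b) D.k6 D.isSec hc
    (D.good hc ⟨typ, fun _ => 0, fun _ _ _ => 1⟩ hsep)

end Vale.Agent.P273.H183

end
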