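import Vale.Agent.P273.H183.StartP
import Vale.Agent.P273.H948.State

/-! Restriction of the family of the curves `y ^ 2 = f(x)` to a smaller base. -/

noncomputable section

namespace Vale.Agent.P273.H183

open Set Filter Topology
open Vale.Agent.P273.H948 (Surf PFam IsModel IsSec State)

variable {m : ℕ} {B B' : Set (Fin m → ℂ)} {a : (Fin m → ℂ) → Fin 6 → ℂ}

theorem Zaff_mono (h : B' ⊆ B) : Zaff B' a ⊆ Zaff B a := fun _ hz => ⟨h hz.1, hz.2⟩

theorem Zfar_mono (h : B' ⊆ B) : Zfar B' a ⊆ Zfar B a := fun _ hz => ⟨h hz.1, hz.2⟩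

theorem tot_mono (h : B' ⊆ B) : tot B' a ⊆ tot B a :=
  union_subset_union (image_mono (Zaff_mono h)) (image_mono (Zfar_mono h))

theorem mem_tot_of_pr {P : tot B a} (hP : pr P ∈ B') : P.1 ∈ tot B' a := by
  obtain ⟨P, ⟨z, hz, rfl⟩ | ⟨z, hz, rfl⟩⟩ := P
  · exact Or.inl ⟨z, ⟨hP, hz.2⟩, rfl⟩
  · exact Or.inr ⟨z, ⟨hP, hz.2⟩, rfl⟩

/-- The inclusion. -/
def inT (h : B' ⊆ B) (P : tot B' a) : tot B a := ⟨P.1, tot_mono h P.2⟩

/-- A point over the smaller base. -/
def toT (P : tot B a) (hP : pr P ∈ B') : tot B' a := ⟨P.1, mem_tot_of_pr hP⟩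

variable {h : B' ⊆ B}

theorem inT_toT {P : tot B a} (hP : pr P ∈ B') : inT h (toT P hP) = P := rfl

theorem toT_inT {P : tot B' a} (hP : pr (inT h P) ∈ B') : toT (inT h P) hP = P := rfl

theorem cA_inT (P : tot B' a) : cA (inT h P) = cA P := rfl
theorem cF_inT (P : tot B' a) : cF (inT h P) = cF P := rfl
theorem pr_inT (P : tot B' a) : pr (inT h P) = pr P := rfl
theorem xC_inT (P : tot B' a) : xC (inT h P) = xC P := rfl
theorem yC_inT (P : tot B' a) : yC (inT h P) = yC P := rfl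
theorem wC_inT (P : tot B' a) : wC (inT h P) = wC P := rfl
theorem uC_inT (P : tot B' a) : uC (inT h P) = uC P := rfl

theorem aff_inT {P : tot B' a} : inT h P ∈ (aff : Set (tot B a)) ↔ P ∈ (aff : Set (tot B' a)) :=
  Iff.rfl

theorem far_inT {P : tot B' a} : inT h P ∈ (far : Set (tot B a)) ↔ P ∈ (far : Set (tot B' a)) :=
  Iff.rfl

theorem continuous_inT : Continuous (inT h : tot B' a → tot B a) :=
  continuous_subtype_val.subtype_mk _

theorem inT_injective : Function.Injective (inT h : tot B' a → tot B a) := fun _ _ e =>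
  Subtype.ext (congrArg (fun z : tot B a => z.1) e)

theorem range_inT : range (inT h : tot B' a → tot B a) = pr ⁻¹' B' := by
  ext P
  constructor
  · rintro ⟨Q, rfl⟩
    exact pr_mem Q
  · intro hP
    exact ⟨toT P hP, rfl⟩

theorem inT_emb (hB' : IsOpen B') : IsOpenEmbedding (inT h : tot B' a → tot B a) := by
  refine ⟨⟨?_, inT_injective⟩, ?_⟩
  · refine ⟨?_⟩
    rw [instTopologicalSpaceSubtype, instTopologicalSpaceSubtype, induced_compose]
    rfl
  · rw [range_inT]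
    exact hB'.preimage continuous_pr

theorem hlo_congr {g g' : tot B a → ℂ} {P : tot B a} (hg : hlo g' P) (e : g =ᶠ[𝓝 P] g') :
    hlo g P := by
  rcases hg with ⟨hA, G, hG, e'⟩ | ⟨hA, G, hG, e'⟩
  · refine Or.inl ⟨hA, G, hG, ?_⟩
    filter_upwards [e, e'] with Q h1 h2
    rw [h1, h2]
  · refine Or.inr ⟨hA, G, hG, ?_⟩
    filter_upwards [e, e'] with Q h1 h2
    rw [h1, h2]

/-- Holomorphic functions extend locally. -/
theorem hlo_inT_iff {g : tot B' a → ℂ} {P : tot B' a} :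
    hlo g P ↔ ∃ g', hlo g' (inT h P) ∧ g =ᶠ[𝓝 P] g' ∘ inT h := by
  constructor
  · rintro (⟨hA, G, hG, e⟩ | ⟨hA, G, hG, e⟩)
    · exact ⟨fun Q => G (cA Q), Or.inl ⟨hA, G, hG, Eventually.of_forall fun _ => rfl⟩, e⟩
    · exact ⟨fun Q => G (cF Q), Or.inr ⟨hA, G, hG, Eventually.of_forall fun _ => rfl⟩, e⟩
  · rintro ⟨g', (⟨hA, G, hG, e⟩ | ⟨hA, G, hG, e⟩), e'⟩
    · refine Or.inl ⟨hA, G, hG, ?_⟩
      filter_upwards [e', (continuous_inT (h := h)).continuousAt.eventually e] with Q h1 h2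
      rw [h1, Function.comp_apply, h2]; rfl
    · refine Or.inr ⟨hA, G, hG, ?_⟩
      filter_upwards [e', (continuous_inT (h := h)).continuousAt.eventually e] with Q h1 h2
      rw [h1, Function.comp_apply, h2]; rfl

theorem hlo_comp_inT {g : tot B a → ℂ} {P : tot B' a} (hg : hlo g (inT h P)) :
    hlo (g ∘ inT h) P := by
  rcases hg with ⟨hA, G, hG, e⟩ | ⟨hA, G, hG, e⟩
  · exact Or.inl ⟨hA, G, hG, (continuous_inT (h := h)).continuousAt.eventually e⟩
  · exact Or.inr ⟨hA, G, hG, (continuous_inT (h := h)).continuousAt.eventually e⟩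

theorem hlo_comp_inT_iff (hB' : IsOpen B') {g : tot B a → ℂ} {P : tot B' a} :
    hlo (g ∘ inT h) P ↔ hlo g (inT h P) := by
  refine ⟨fun hg => ?_, hlo_comp_inT⟩
  obtain ⟨g', h1, h2⟩ := (hlo_inT_iff (h := h)).1 hg
  refine hlo_congr h1 ?_
  have := (inT_emb (h := h) (a := a) hB').map_nhds_eq P
  rw [← this]
  exact h2

theorem inT_secA [Nonempty (tot B a)] [Nonempty (tot B' a)] {x y : (Fin m → ℂ) → ℂ}
    {b : Fin m → ℂ} (hb : (b, x b, y b) ∈ Zaff B' a) :
    inT h (secA x y b : tot B' a) = secA x y b := by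
  rw [secA_eq hb, secA_eq (Zaff_mono h hb)]; rfl

theorem inT_secF [Nonempty (tot B a)] [Nonempty (tot B' a)] {x y : (Fin m → ℂ) → ℂ}
    {b : Fin m → ℂ} (hb : (b, x b, y b) ∈ Zfar B' a) :
    inT h (secF x y b : tot B' a) = secF x y b := by
  rw [secF_eq hb, secF_eq (Zfar_mono h hb)]; rfl

section

variable (hB : IsOpen B) (ha : ∀ b ∈ B, AnalyticAt ℂ a b) (hK : ∀ b ∈ B, a b ∈ K6)
  (hB' : IsOpen B')

theorem smooth_inT (h : B' ⊆ B) {P : tot B' a} :
    (startS B' a hB' (fun b hb => ha b (h hb)) fun b hb => hK b (h hb)).SmoothAt P ↔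
      (startS B a hB ha hK).SmoothAt (inT h P) := by
  constructor
  · intro hP
    exact H948.smoothAt_image (S := startS B' a hB' (fun b hb => ha b (h hb))
      fun b hb => hK b (h hb)) (T := startS B a hB ha hK) (ι := inT h) (inT_emb hB')
      (fun _ => rfl) (fun x g => (hlo_comp_inT_iff (h := h) (g := g) (P := x) hB').symm) hP
  · rintro ⟨U, u, v, t, hx, hm, h0⟩
    refine ⟨inT h ⁻¹' U, u ∘ inT h, v ∘ inT h, t, hx, ?_, h0⟩
    exact hm.preimage (πY := (pr : tot B' a → _)) (holY := fun P f => hlo f P)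
      (ι := (inT h : tot B' a → tot B a)) (inT_emb hB') (fun _ => rfl)
      (fun y g => hlo_inT_iff)

end

end Vale.Agent.P273.H183

end
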