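import Vale.Agent.P273.H183.Restr

/-! The contraction of a state of the insertion process, over the base of the state. -/

noncomputable section

namespace Vale.Agent.P273.H183

open Set Filter Topology
open Vale.Agent.P273.H948 (Surf PFam IsModel IsSec State)

variable {m : ℕ} {B B' : Set (Fin m → ℂ)} {a : (Fin m → ℂ) → Fin 6 → ℂ}

/-- A state over the start family over `B`, with base `B' ⊆ B`: the contraction to the start family
over `B'`. -/
theorem exists_ctrB {L : Type} {A : Set L} (hB : IsOpen B) (ha : ∀ b ∈ B, AnalyticAt ℂ a b)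
    (hK : ∀ b ∈ B, a b ∈ K6) {P : L → (Fin m → ℂ) → tot B a}
    (σ : State (startS B a hB ha hK) P A) (hB' : IsOpen B') (h : B' ⊆ B) (e : σ.F.B = B')
    {P' : L → (Fin m → ℂ) → tot B' a} (hP : ∀ j, ∀ b ∈ B', inT h (P' j b) = P j b) :
    ∃ r : σ.F.S.X → tot B' a, Continuous r ∧ (∀ x, pr (r x) = σ.F.S.π x) ∧
      (∀ x, inT h (r x) = σ.r x) ∧
      (∀ x g, hlo g (r x) → σ.F.S.hol x (g ∘ r)) ∧
      (∀ j, ∀ b ∈ B', r (σ.s j b) = P' j b) ∧
      ∀ b ∈ B', (∀ j, (startS B' a hB' (fun b hb => ha b (h hb))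
        fun b hb => hK b (h hb)).SmoothAt (P' j b)) → (∀ i j, P' i b = P' j b → i = j) →
        BijOn r (σ.F.S.π ⁻¹' {b}) (pr ⁻¹' {b}) := by
  have hmem : ∀ x, pr (σ.r x : tot B a) ∈ B' := by
    intro x
    have h1 : pr (σ.r x : tot B a) = σ.F.S.π x := σ.π_r x
    rw [h1, ← e]
    exact σ.F.mem x
  let r : σ.F.S.X → tot B' a := fun x => toT (σ.r x) (hmem x)
  have hr : ∀ x, inT h (r x) = σ.r x := fun x => rfl
  have hc : Continuous r := by
    rw [(inT_emb (h := h) (a := a) hB').isEmbedding.continuous_iff]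
    exact σ.cont_r
  refine ⟨r, hc, fun x => σ.π_r x, hr, ?_, ?_, ?_⟩
  · intro x g hg
    obtain ⟨g', h1, h2⟩ := (hlo_inT_iff (h := h)).1 hg
    have h3 : σ.F.S.hol x (g' ∘ σ.r) := σ.pull x g' h1
    refine σ.F.S.hol_congr h3 ?_
    filter_upwards [hc.continuousAt.eventually h2] with y hy
    exact hy
  · intro j b hb
    apply inT_injective (h := h)
    rw [hr, hP j b hb]
    exact σ.rs j b (by rw [e]; exact hb)
  · intro b hb h1 h2
    have h3 := σ.bij b (by rw [e]; exact hb) (fun j => by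
      rw [← hP j b hb]
      exact (smooth_inT hB ha hK hB' h).1 (h1 j)) (fun i j hij => by
      rw [← hP i b hb, ← hP j b hb] at hij
      exact h2 i j (inT_injective hij))
    refine ⟨?_, ?_, ?_⟩
    · intro x hx
      have h4 : pr (σ.r x : tot B a) = σ.F.S.π x := σ.π_r x
      change pr (σ.r x : tot B a) = b
      rw [h4]; exact hx
    · intro x hx y hy hxy
      exact h3.injOn hx hy (by rw [← hr, ← hr, hxy])
    · intro y hy
      obtain ⟨x, hx, hxy⟩ := h3.surjOn (show inT h y ∈ (startS B a hB ha hK).π ⁻¹' {b} from hy)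
      exact ⟨x, hx, inT_injective (h := h) (by rw [hr, hxy])⟩

end Vale.Agent.P273.H183

end
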