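import Vale.Agent.P273.H183.Start
import Vale.Agent.P273.H183.Amb

/-! The family of the curves `y ^ 2 = f(x)`: charts and properness. -/

noncomputable section

namespace Vale.Agent.P273.H183

open Set Filter
open scoped Topology ComplexConjugate

variable {m : ℕ} {B : Set (Fin m → ℂ)} {a : (Fin m → ℂ) → Fin 6 → ℂ}

theorem continuous_sx : Continuous fun z : (Fin 6 → ℂ) × ℂ => sx z.1 z.2 := by
  unfold sx; fun_prop

theorem continuous_sw : Continuous fun z : (Fin 6 → ℂ) × ℂ => sw z.1 z.2 := by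
  unfold sw; fun_prop

theorem pr_mem (P : tot B a) : pr P ∈ B := by
  rcases mem_aff_or_far P with h | h
  · exact (cA_mem h).1
  · exact (cF_mem h).1

theorem isCompact_part {s : (Fin 6 → ℂ) × ℂ → ℂ} (hs : Continuous s) (ha : ContinuousOn a B)
    {K : Set (Fin m → ℂ)} (hK : K ⊆ B) (hKc : IsCompact K) :
    IsCompact {z : (Fin m → ℂ) × ℂ × ℂ | z.1 ∈ K ∧ ‖z.2.1‖ ≤ 1 ∧ z.2.2 ^ 2 = s (a z.1, z.2.1)} := by
  have hS : IsCompact (K ×ˢ Metric.closedBall (0 : ℂ) 1) := hKc.prod (isCompact_closedBall _ _)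
  have hc : ContinuousOn (fun z : (Fin m → ℂ) × ℂ => s (a z.1, z.2)) (K ×ˢ Metric.closedBall (0 : ℂ) 1) :=
    hs.comp_continuousOn (((ha.mono hK).comp continuousOn_fst fun z hz => hz.1).prodMk continuousOn_snd)
  obtain ⟨R, hR⟩ := hS.exists_bound_of_continuousOn hc
  have hT : IsCompact (K ×ˢ Metric.closedBall (0 : ℂ) 1 ×ˢ Metric.closedBall (0 : ℂ) (R + 1)) :=
    hKc.prod ((isCompact_closedBall _ _).prod (isCompact_closedBall _ _))
  have hc' : ContinuousOn (fun z : (Fin m → ℂ) × ℂ × ℂ => z.2.2 ^ 2 - s (a z.1, z.2.1))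
      (K ×ˢ Metric.closedBall (0 : ℂ) 1 ×ˢ Metric.closedBall (0 : ℂ) (R + 1)) := by
    refine ContinuousOn.sub (by fun_prop) ?_
    exact hc.comp (f := fun z : (Fin m → ℂ) × ℂ × ℂ => (z.1, z.2.1)) (by fun_prop)
      fun z hz => ⟨hz.1, hz.2.1⟩
  have h3 := hc'.preimage_isClosed_of_isClosed hT.isClosed isClosed_singleton (t := {0})
  have h4 : {z : (Fin m → ℂ) × ℂ × ℂ | z.1 ∈ K ∧ ‖z.2.1‖ ≤ 1 ∧ z.2.2 ^ 2 = s (a z.1, z.2.1)} =
      (K ×ˢ Metric.closedBall (0 : ℂ) 1 ×ˢ Metric.closedBall (0 : ℂ) (R + 1)) ∩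
        (fun z : (Fin m → ℂ) × ℂ × ℂ => z.2.2 ^ 2 - s (a z.1, z.2.1)) ⁻¹' {0} := by
    ext z
    constructor
    · rintro ⟨h1, h2, h5⟩
      have h6 := hR (z.1, z.2.1) ⟨h1, by simpa using h2⟩
      simp only at h6
      rw [← h5, norm_pow] at h6
      refine ⟨⟨h1, by simpa using h2, ?_⟩, ?_⟩
      · have h7 : ‖z.2.2‖ ≤ R + 1 := by nlinarith [sq_nonneg (‖z.2.2‖ - 1), norm_nonneg z.2.2]
        simpa using h7
      · simp [h5]
    · rintro ⟨⟨h1, h2, -⟩, h5⟩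
      refine ⟨h1, by simpa using h2, ?_⟩
      exact sub_eq_zero.1 h5
  rw [h4]
  exact hT.of_isClosed_subset h3 inter_subset_left

theorem isCompact_pr (ha : ContinuousOn a B) {K : Set (Fin m → ℂ)} (hK : K ⊆ B)
    (hKc : IsCompact K) : IsCompact (pr ⁻¹' K : Set (tot B a)) := by
  rw [Subtype.isCompact_iff]
  have h1 := (isCompact_part (s := fun z => sx z.1 z.2) continuous_sx ha hK hKc).image
    (f := emb) continuous_emb
  have h2 := (isCompact_part (s := fun z => sw z.1 z.2) continuous_sw ha hK hKc).image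
    (f := emb') continuous_emb'
  convert h1.union h2 using 1
  ext z
  constructor
  · rintro ⟨P, hP, rfl⟩
    have hP' : pr P ∈ K := hP
    by_cases hA : P ∈ (aff : Set (tot B a)) ∧ ‖xC P‖ ≤ 1
    · left
      exact ⟨cA P, ⟨hP', hA.2, (cA_mem hA.1).2⟩, emb_cA hA.1⟩
    · right
      have hF : P ∈ (far : Set (tot B a)) ∧ ‖wC P‖ ≤ 1 := by
        rcases mem_aff_or_far P with h | h
        · have h' : ¬ ‖xC P‖ ≤ 1 := fun e => hA ⟨h, e⟩
          have h0 : xC P ≠ 0 := by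
            intro e; apply h'; rw [e, norm_zero]; exact zero_le_one
          have hf := (far_iff h).2 h0
          refine ⟨hf, ?_⟩
          rw [wC_eq h hf, norm_inv]
          exact inv_le_one_of_one_le₀ (not_le.1 h').le
        · refine ⟨h, ?_⟩
          by_cases h2 : P ∈ (aff : Set (tot B a))
          · have h' : ¬ ‖xC P‖ ≤ 1 := fun e => hA ⟨h2, e⟩
            rw [wC_eq h2 h, norm_inv]
            exact inv_le_one_of_one_le₀ (not_le.1 h').le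
          · have : wC P = 0 := by
              by_contra e
              exact h2 ((aff_iff h).2 e)
            rw [this, norm_zero]; exact zero_le_one
      exact ⟨cF P, ⟨hP', hF.2, (cF_mem hF.1).2⟩, emb'_cF hF.1⟩
  · rintro (⟨z, ⟨h1, -, h2⟩, rfl⟩ | ⟨z, ⟨h1, -, h2⟩, rfl⟩)
    · exact ⟨⟨emb z, Or.inl ⟨z, ⟨hK h1, h2⟩, rfl⟩⟩, h1, rfl⟩
    · exact ⟨⟨emb' z, Or.inr ⟨z, ⟨hK h1, h2⟩, rfl⟩⟩, h1, rfl⟩

/-! ### Derivatives -/

theorem hasDerivAt_sx (a : Fin 6 → ℂ) (x : ℂ) : HasDerivAt (sx a) (sx1 a x) x := by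
  have h (n : ℕ) (c : ℂ) : HasDerivAt (fun x : ℂ => c * x ^ n) (c * (n * x ^ (n - 1))) x :=
    (hasDerivAt_pow n x).const_mul c
  have := ((((((h 6 1).add (h 5 (a 5))).add (h 4 (a 4))).add (h 3 (a 3))).add
    (h 2 (a 2))).add (h 1 (a 1))).add (hasDerivAt_const x (a 0))
  refine (this.congr_deriv ?_).congr_of_eventuallyEq (Eventually.of_forall fun x => ?_)
  · simp only [sx1]; norm_num; ring
  · simp only [sx, Pi.add_apply]; ring

theorem hasDerivAt_sx1 (a : Fin 6 → ℂ) (x : ℂ) : HasDerivAt (sx1 a) (2 * hx a x x) x := by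
  have h (n : ℕ) (c : ℂ) : HasDerivAt (fun x : ℂ => c * x ^ n) (c * (n * x ^ (n - 1))) x :=
    (hasDerivAt_pow n x).const_mul c
  have := (((((h 5 6).add (h 4 (5 * a 5))).add (h 3 (4 * a 4))).add (h 2 (3 * a 3))).add
    (h 1 (2 * a 2))).add (hasDerivAt_const x (a 1))
  refine (this.congr_deriv ?_).congr_of_eventuallyEq (Eventually.of_forall fun x => ?_)
  · simp only [hx]; norm_num; ring
  · simp only [sx1, Pi.add_apply]; ring

section

variable {b₀ : Fin m → ℂ} (ha : AnalyticAt ℂ a b₀)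
include ha

theorem analyticAt_coef (i : Fin 6) : AnalyticAt ℂ (fun b => a b i) b₀ :=
  (ContinuousLinearMap.proj (R := ℂ) (φ := fun _ : Fin 6 => ℂ) i).analyticAt _ |>.comp ha

theorem analyticAt_sx {A : Type*} [NormedAddCommGroup A] [NormedSpace ℂ A] {z₀ : A}
    {β : A → Fin m → ℂ} {x : A → ℂ} (hβ : AnalyticAt ℂ β z₀) (h0 : β z₀ = b₀)
    (hx : AnalyticAt ℂ x z₀) : AnalyticAt ℂ (fun z => sx (a (β z)) (x z)) z₀ := by
  have h (i : Fin 6) : AnalyticAt ℂ (fun z => a (β z) i) z₀ :=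
    AnalyticAt.comp (g := fun b => a b i) (by rw [h0]; exact analyticAt_coef ha i) hβ
  unfold sx
  exact ((((((hx.pow 6).add ((h 5).mul (hx.pow 5))).add ((h 4).mul (hx.pow 4))).add
    ((h 3).mul (hx.pow 3))).add ((h 2).mul (hx.pow 2))).add ((h 1).mul hx)).add (h 0)

theorem analyticAt_sw {A : Type*} [NormedAddCommGroup A] [NormedSpace ℂ A] {z₀ : A}
    {β : A → Fin m → ℂ} {x : A → ℂ} (hβ : AnalyticAt ℂ β z₀) (h0 : β z₀ = b₀)
    (hx : AnalyticAt ℂ x z₀) : AnalyticAt ℂ (fun z => sw (a (β z)) (x z)) z₀ := by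
  have h (i : Fin 6) : AnalyticAt ℂ (fun z => a (β z) i) z₀ :=
    AnalyticAt.comp (g := fun b => a b i) (by rw [h0]; exact analyticAt_coef ha i) hβ
  unfold sw
  exact (((((analyticAt_const.add ((h 5).mul hx)).add ((h 4).mul (hx.pow 2))).add
    ((h 3).mul (hx.pow 3))).add ((h 2).mul (hx.pow 4))).add ((h 1).mul (hx.pow 5))).add
    ((h 0).mul (hx.pow 6))

theorem analyticAt_sx1 {A : Type*} [NormedAddCommGroup A] [NormedSpace ℂ A] {z₀ : A}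
    {β : A → Fin m → ℂ} {x : A → ℂ} (hβ : AnalyticAt ℂ β z₀) (h0 : β z₀ = b₀)
    (hx : AnalyticAt ℂ x z₀) : AnalyticAt ℂ (fun z => sx1 (a (β z)) (x z)) z₀ := by
  have h (i : Fin 6) : AnalyticAt ℂ (fun z => a (β z) i) z₀ :=
    AnalyticAt.comp (g := fun b => a b i) (by rw [h0]; exact analyticAt_coef ha i) hβ
  unfold sx1
  exact (((((analyticAt_const.mul (hx.pow 5)).add ((analyticAt_const.mul (h 5)).mul (hx.pow 4))).add
    ((analyticAt_const.mul (h 4)).mul (hx.pow 3))).add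
    ((analyticAt_const.mul (h 3)).mul (hx.pow 2))).add ((analyticAt_const.mul (h 2)).mul hx)).add
    (h 1)

theorem analyticAt_hx {A : Type*} [NormedAddCommGroup A] [NormedSpace ℂ A] {z₀ : A}
    {β : A → Fin m → ℂ} {c x : A → ℂ} (hβ : AnalyticAt ℂ β z₀) (h0 : β z₀ = b₀)
    (hc : AnalyticAt ℂ c z₀)
    (hX : AnalyticAt ℂ x z₀) : AnalyticAt ℂ (fun z => hx (a (β z)) (c z) (x z)) z₀ := by
  have h (i : Fin 6) : AnalyticAt ℂ (fun z => a (β z) i) z₀ :=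
    AnalyticAt.comp (g := fun b => a b i) (by rw [h0]; exact analyticAt_coef ha i) hβ
  have h2 := hc.pow 2
  have h3 := hc.pow 3
  have h4 := hc.pow 4
  have k (r : ℂ) : AnalyticAt ℂ (fun _ : A => r) z₀ := analyticAt_const
  unfold hx
  have e5 := ((((hX.pow 4).add (((k 2).mul hc).mul (hX.pow 3))).add
    (((k 3).mul h2).mul (hX.pow 2))).add (((k 4).mul h3).mul hX)).add ((k 5).mul h4)
  have e4 := (h 5).mul ((((hX.pow 3).add (((k 2).mul hc).mul (hX.pow 2))).add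
    (((k 3).mul h2).mul hX)).add ((k 4).mul h3))
  have e3 := (h 4).mul (((hX.pow 2).add (((k 2).mul hc).mul hX)).add ((k 3).mul h2))
  have e2 := (h 3).mul (hX.add ((k 2).mul hc))
  exact (((e5.add e4).add e3).add e2).add (h 2)

end

section

variable {X : Type} [TopologicalSpace X] {π : X → Fin m → ℂ} {hol : (X → ℂ) → X → Prop} {O : Set X}
  {α β : X → ℂ} {Z : Set ((Fin m → ℂ) × ℂ × ℂ)} {p₀ : X}

/-- A chart at a double root. -/
theorem IsAmb.dbl (h : IsAmb π hol O α β Z) (hp₀ : p₀ ∈ O)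
    (ha : AnalyticAt ℂ a (π p₀)) (h1 : sx1 (a (π p₀)) (α p₀) = 0)
    (h2 : hx (a (π p₀)) (α p₀) (α p₀) ≠ 0)
    (hZ : ∀ᶠ z in 𝓝 ((π p₀, α p₀, β p₀) : (Fin m → ℂ) × ℂ × ℂ),
      z ∈ Z ↔ z.2.2 ^ 2 = sx (a z.1) z.2.1) :
    ∃ U x y t, p₀ ∈ U ∧ U ⊆ O ∧ IsChart π hol U x y t := by
  have k1 : AnalyticAt ℂ (fun z : (Fin m → ℂ) × ℂ => sx1 (a z.1) z.2) (π p₀, α p₀) :=
    analyticAt_sx1 (β := fun z : (Fin m → ℂ) × ℂ => z.1) (x := fun z => z.2) ha analyticAt_fst rfl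
      analyticAt_snd
  have k2 : HasDerivAt (fun x : ℂ => sx1 (a (π p₀)) x) (2 * hx (a (π p₀)) (α p₀) (α p₀)) (α p₀) :=
    hasDerivAt_sx1 _ _
  obtain ⟨c, hc, hc0, hce⟩ := exists_implicit (G := fun z : (Fin m → ℂ) × ℂ => sx1 (a z.1) z.2)
    k1 h1 (mul_ne_zero two_ne_zero h2) k2
  have hc' : AnalyticAt ℂ (fun z : (Fin m → ℂ) × ℂ × ℂ => c z.1) (π p₀, α p₀, β p₀) :=
    AnalyticAt.comp (g := c) (f := Prod.fst) hc analyticAt_fst
  have hH := analyticAt_hx ha (β := fun z : (Fin m → ℂ) × ℂ × ℂ => z.1)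
    (z₀ := (π p₀, α p₀, β p₀)) analyticAt_fst rfl hc' (analyticAt_mid _)
  obtain ⟨r, hr, hr0, hre⟩ := exists_sqrt hH (by simpa only [hc0] using h2)
  have hs : AnalyticAt ℂ (fun z : (Fin m → ℂ) × ℂ × ℂ => (z.2.1 - c z.1) * r z)
    (π p₀, α p₀, β p₀) := ((analyticAt_mid _).sub hc').mul hr
  have hr1 : DifferentiableAt ℂ (fun x => r (π p₀, x, β p₀)) (α p₀) :=
    DifferentiableAt.comp (g := r) (α p₀) hr.differentiableAt (by fun_prop :
      DifferentiableAt ℂ (fun x : ℂ => ((π p₀, x, β p₀) : (Fin m → ℂ) × ℂ × ℂ)) (α p₀))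
  have hr2 : DifferentiableAt ℂ (fun y => r (π p₀, α p₀, y)) (β p₀) :=
    DifferentiableAt.comp (g := r) (β p₀) hr.differentiableAt (by fun_prop :
      DifferentiableAt ℂ (fun y : ℂ => ((π p₀, α p₀, y) : (Fin m → ℂ) × ℂ × ℂ)) (β p₀))
  have ht : AnalyticAt ℂ (fun b => sx (a b) (c b)) (π p₀) := analyticAt_sx ha analyticAt_id rfl hc
  have g1 : HasDerivAt (fun _ : ℂ => β p₀) 0 (α p₀) := hasDerivAt_const _ _
  have g2 : HasDerivAt (fun y : ℂ => y) 1 (β p₀) := hasDerivAt_id _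
  have g3 : HasDerivAt (fun x : ℂ => (x - c (π p₀)) * r (π p₀, x, β p₀))
      (r (π p₀, α p₀, β p₀)) (α p₀) := by
    have := ((hasDerivAt_id (α p₀)).sub_const (c (π p₀))).mul hr1.hasDerivAt
    refine HasDerivAt.congr_deriv this ?_
    simp [hc0]
  have g4 : HasDerivAt (fun y : ℂ => (α p₀ - c (π p₀)) * r (π p₀, α p₀, y)) 0 (β p₀) := by
    refine HasDerivAt.congr_deriv (hr2.hasDerivAt.const_mul (α p₀ - c (π p₀))) ?_
    simp [hc0]
  have hdet : (0 : ℂ) * 0 - 1 * r (π p₀, α p₀, β p₀) ≠ 0 := by simpa using hr0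
  have hZ' : ∀ᶠ z in 𝓝 ((π p₀, α p₀, β p₀) : (Fin m → ℂ) × ℂ × ℂ),
      z ∈ Z ↔ z.2.2 ^ 2 - ((z.2.1 - c z.1) * r z) ^ 2 = sx (a z.1) (c z.1) := by
    filter_upwards [hZ, hre, continuousAt_fst.eventually hce] with z h1 h2 h3
    rw [h1]
    have h4 := sx_eq (a z.1) (c z.1) z.2.1
    rw [h3, ← h2] at h4
    rw [h4]
    constructor
    · intro e; linear_combination e
    · intro e; linear_combination e
  obtain ⟨U, hU⟩ := IsAmb.node (s := fun z => z.2.2) (q := fun z => (z.2.1 - c z.1) * r z)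
    (t := fun b => sx (a b) (c b)) h hp₀ (analyticAt_snd' _) hs ht g1 g2 g3 g4 hdet hZ'
  exact ⟨U, _, _, _, hU⟩

/-- Charts of `y ^ 2 = f(x)`. -/
theorem IsAmb.sextic (h : IsAmb π hol O α β Z) (hp₀ : p₀ ∈ O)
    (ha : AnalyticAt ℂ a (π p₀)) (hK : a (π p₀) ∈ K6)
    (hZ : ∀ᶠ z in 𝓝 ((π p₀, α p₀, β p₀) : (Fin m → ℂ) × ℂ × ℂ),
      z ∈ Z ↔ z.2.2 ^ 2 = sx (a z.1) z.2.1) (h0 : β p₀ ^ 2 = sx (a (π p₀)) (α p₀)) :
    ∃ U x y t, p₀ ∈ U ∧ U ⊆ O ∧ IsChart π hol U x y t := by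
  have hF : AnalyticAt ℂ (fun z : (Fin m → ℂ) × ℂ × ℂ => z.2.2 ^ 2 - sx (a z.1) z.2.1)
      (π p₀, α p₀, β p₀) :=
    ((analyticAt_snd' _).pow 2).sub (analyticAt_sx ha analyticAt_fst rfl (analyticAt_mid _))
  have hZ' : ∀ᶠ z in 𝓝 ((π p₀, α p₀, β p₀) : (Fin m → ℂ) × ℂ × ℂ),
      z ∈ Z ↔ (fun z : (Fin m → ℂ) × ℂ × ℂ => z.2.2 ^ 2 - sx (a z.1) z.2.1) z = 0 := by
    filter_upwards [hZ] with z hz
    rw [hz, sub_eq_zero]
  by_cases hy : β p₀ = 0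
  · have hs0 : sx (a (π p₀)) (α p₀) = 0 := by rw [← h0, hy]; ring
    by_cases h1 : sx1 (a (π p₀)) (α p₀) = 0
    · exact h.dbl hp₀ ha h1 (hK _ hs0 h1) hZ
    · have g : HasDerivAt (fun x => β p₀ ^ 2 - sx (a (π p₀)) x) (-sx1 (a (π p₀)) (α p₀)) (α p₀) :=
        (hasDerivAt_sx _ _).const_sub _
      obtain ⟨U, x, y, h⟩ := h.smooth hp₀ hF hZ' (neg_ne_zero.2 h1) (Or.inr g)
      exact ⟨U, x, y, _, h⟩
  · have g : HasDerivAt (fun y => y ^ 2 - sx (a (π p₀)) (α p₀)) (2 * β p₀) (β p₀) := by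
      refine HasDerivAt.congr_deriv ((hasDerivAt_pow 2 (β p₀)).sub_const _) ?_
      simp
    obtain ⟨U, x, y, h⟩ := h.smooth hp₀ hF hZ' (mul_ne_zero two_ne_zero hy) (Or.inl g)
    exact ⟨U, x, y, _, h⟩

/-- The neck chart. -/
theorem IsAmb.neck (h : IsAmb π hol O α β Z) (hp₀ : p₀ ∈ O) {e ε : (Fin m → ℂ) → ℂ}
    {G : (Fin m → ℂ) × ℂ → ℂ} (he : AnalyticAt ℂ e (π p₀)) (hε : AnalyticAt ℂ ε (π p₀))
    (h2 : β p₀ = 0)
    (hG : AnalyticAt ℂ G (π p₀, α p₀)) (hG0 : G (π p₀, α p₀) ≠ 0)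
    (hZ : ∀ᶠ z in 𝓝 ((π p₀, α p₀, β p₀) : (Fin m → ℂ) × ℂ × ℂ),
      z ∈ Z ↔ z.2.2 ^ 2 = ((z.2.1 - e z.1) ^ 2 - ε z.1) * G (z.1, z.2.1) ^ 2) :
    ∃ U, p₀ ∈ U ∧ U ⊆ O ∧ IsChart π hol U (fun Q => α Q - e (π Q) + β Q / G (π Q, α Q))
        (fun Q => α Q - e (π Q) - β Q / G (π Q, α Q)) ε := by
  have hG' : AnalyticAt ℂ (fun z : (Fin m → ℂ) × ℂ × ℂ => G (z.1, z.2.1)) (π p₀, α p₀, β p₀) :=
    AnalyticAt.comp (g := G) (f := fun z : (Fin m → ℂ) × ℂ × ℂ => (z.1, z.2.1)) hG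
      (analyticAt_fst.prod (analyticAt_mid _))
  have he' : AnalyticAt ℂ (fun z : (Fin m → ℂ) × ℂ × ℂ => e z.1) (π p₀, α p₀, β p₀) :=
    AnalyticAt.comp (g := e) (f := Prod.fst) he analyticAt_fst
  have g1 : HasDerivAt (fun x : ℂ => x - e (π p₀)) 1 (α p₀) := (hasDerivAt_id _).sub_const _
  have g2 : HasDerivAt (fun _ : ℂ => α p₀ - e (π p₀)) 0 (β p₀) := hasDerivAt_const _ _
  have g3 : HasDerivAt (fun x : ℂ => β p₀ / G (π p₀, x)) 0 (α p₀) := by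
    simpa [h2] using hasDerivAt_const (α p₀) (0 : ℂ)
  have g4 : HasDerivAt (fun y : ℂ => y / G (π p₀, α p₀)) (1 / G (π p₀, α p₀)) (β p₀) :=
    (hasDerivAt_id _).div_const _
  have hdet : (1 : ℂ) * (1 / G (π p₀, α p₀)) - 0 * 0 ≠ 0 := by simpa using hG0
  have hZ' : ∀ᶠ z in 𝓝 ((π p₀, α p₀, β p₀) : (Fin m → ℂ) × ℂ × ℂ),
      z ∈ Z ↔ (z.2.1 - e z.1) ^ 2 - (z.2.2 / G (z.1, z.2.1)) ^ 2 = ε z.1 := by
    filter_upwards [hZ, hG'.continuousAt.eventually_ne hG0] with z h1 h3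
    rw [h1, div_pow, sub_eq_iff_eq_add, ← sub_eq_iff_eq_add', eq_div_iff (pow_ne_zero 2 h3), eq_comm]
  exact IsAmb.node (s := fun z => z.2.1 - e z.1) (q := fun z => z.2.2 / G (z.1, z.2.1)) h hp₀
    ((analyticAt_mid _).sub he') ((analyticAt_snd' _).div hG' hG0) hε g1 g2 g3 g4 hdet hZ'

end

/-- Every point is in a chart. -/
theorem start_chart (hB : IsOpen B) (ha : ∀ b ∈ B, AnalyticAt ℂ a b) (hK : ∀ b ∈ B, a b ∈ K6)
    (P : tot B a) : ∃ U x y t, P ∈ U ∧ IsChart (pr : tot B a → _) hlo U x y t := by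
  by_cases hP : P ∈ (aff : Set (tot B a))
  · have hm := cA_mem hP
    have hb : pr P ∈ B := hm.1
    obtain ⟨U, x, y, t, h1, -, h2⟩ := isAmb_aff.sextic hP (ha _ hb) (hK _ hb) (by
      filter_upwards [continuousAt_fst.eventually (hB.mem_nhds hb)] with z hz
      exact ⟨fun h => h.2, fun h => ⟨hz, h⟩⟩) hm.2
    exact ⟨U, x, y, t, h1, h2⟩
  · have hF := (mem_aff_or_far P).resolve_left hP
    have hm := cF_mem hF
    have hb : pr P ∈ B := hm.1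
    have hw : wC P = 0 := by
      by_contra e
      exact hP ((aff_iff hF).2 e)
    have hu : uC P ^ 2 = 1 := by
      have : uC P ^ 2 = sw (a (pr P)) (wC P) := hm.2
      rw [this, hw]; simp [sw]
    have hu0 : uC P ≠ 0 := by rintro e; rw [e] at hu; norm_num at hu
    have g : HasDerivAt (fun y => y ^ 2 - sw (a (pr P)) (wC P)) (2 * uC P) (uC P) := by
      refine HasDerivAt.congr_deriv ((hasDerivAt_pow 2 (uC P)).sub_const _) ?_
      simp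
    have hA : AnalyticAt ℂ (fun z : (Fin m → ℂ) × ℂ × ℂ => z.2.2 ^ 2 - sw (a z.1) z.2.1)
        (pr P, wC P, uC P) := ((analyticAt_snd' _).pow 2).sub
        (analyticAt_sw (ha _ hb) analyticAt_fst rfl (analyticAt_mid _))
    have hZ : ∀ᶠ z in 𝓝 ((pr P, wC P, uC P) : (Fin m → ℂ) × ℂ × ℂ),
        z ∈ Zfar B a ↔ z.2.2 ^ 2 - sw (a z.1) z.2.1 = 0 := by
      filter_upwards [continuousAt_fst.eventually (hB.mem_nhds hb)] with z hz
      rw [sub_eq_zero]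
      exact ⟨fun h => h.2, fun h => ⟨hz, h⟩⟩
    obtain ⟨U, x, y, h1, -, h2⟩ := IsAmb.smooth isAmb_far hF hA hZ (mul_ne_zero two_ne_zero hu0)
      (Or.inl g)
    exact ⟨U, x, y, _, h1, h2⟩

/-- The neck chart at a node: `f = ((x - e) ^ 2 - ε) G ^ 2`. -/
theorem start_neck (hB : IsOpen B) {e ε : (Fin m → ℂ) → ℂ}
    {G : (Fin m → ℂ) × ℂ → ℂ} {P : tot B a} (hP : P ∈ (aff : Set (tot B a)))
    (he : AnalyticAt ℂ e (pr P)) (hε : AnalyticAt ℂ ε (pr P)) (h2 : yC P = 0) (hG : AnalyticAt ℂ G (pr P, xC P)) (hG0 : G (pr P, xC P) ≠ 0)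
    (hf : ∀ᶠ z in 𝓝 ((pr P, xC P) : (Fin m → ℂ) × ℂ),
      sx (a z.1) z.2 = ((z.2 - e z.1) ^ 2 - ε z.1) * G z ^ 2) :
    ∃ U, P ∈ U ∧ U ⊆ aff ∧
      IsChart (pr : tot B a → _) hlo U (fun Q => xC Q - e (pr Q) + yC Q / G (pr Q, xC Q))
        (fun Q => xC Q - e (pr Q) - yC Q / G (pr Q, xC Q)) ε := by
  have hcont : ContinuousAt (fun z : (Fin m → ℂ) × ℂ × ℂ => (z.1, z.2.1)) (pr P, xC P, yC P) := by
    fun_prop
  refine isAmb_aff.neck hP he hε h2 hG hG0 ?_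
  filter_upwards [continuousAt_fst.eventually (hB.mem_nhds (cA_mem hP).1), hcont.eventually hf]
    with z k1 k2
  constructor
  · rintro ⟨-, h⟩
    rw [h, k2]
  · intro h
    exact ⟨k1, by rw [h, k2]⟩

end Vale.Agent.P273.H183

end
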