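import Vale.Agent.P273.H183.StartCharts
import Vale.Agent.P273.H507.Conn
import Vale.Agent.P273.H948.PFam
import Vale.Agent.P273.H948.Conv

/-! The family of the curves `y ^ 2 = f(x)` as a proper family; sections, smooth points, nodes. -/

noncomputable section

namespace Vale.Agent.P273.H183

open Set Filter
open scoped Topology ComplexConjugate
open Vale.Agent.P273.H948 (Surf PFam IsModel IsSec)

variable {m : ℕ} {B : Set (Fin m → ℂ)} {a : (Fin m → ℂ) → Fin 6 → ℂ}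

/-- The surface of the family. -/
def startS (B : Set (Fin m → ℂ)) (a : (Fin m → ℂ) → Fin 6 → ℂ) (hB : IsOpen B)
    (ha : ∀ b ∈ B, AnalyticAt ℂ a b) (hK : ∀ b ∈ B, a b ∈ K6) : Surf m where
  X := tot B a
  top := inferInstance
  t2 := inferInstance
  π := pr
  hol P f := hlo f P
  model P := by
    obtain ⟨U, x, y, t, h1, h2⟩ := start_chart hB ha hK P
    exact ⟨U, x, y, t, h1, IsChart.isModel (hol := fun P f => hlo f P) h2⟩

/-- The proper family. -/
def startP (B : Set (Fin m → ℂ)) (a : (Fin m → ℂ) → Fin 6 → ℂ) (hB : IsOpen B)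
    (ha : ∀ b ∈ B, AnalyticAt ℂ a b) (hK : ∀ b ∈ B, a b ∈ K6) : PFam m where
  S := startS B a hB ha hK
  B := B
  openB := hB
  mem := pr_mem
  proper _ hK' hc := isCompact_pr (fun b hb => (ha b hb).continuousAt.continuousWithinAt) hK' hc
  conn _ hb := H507.isConnected_pr hb

variable (hB : IsOpen B) (ha : ∀ b ∈ B, AnalyticAt ℂ a b) (hK : ∀ b ∈ B, a b ∈ K6)

/-- The point of the affine part with coordinates `(b, x, y)`. -/
def pA (b : Fin m → ℂ) (x y : ℂ) (h : (b, x, y) ∈ Zaff B a) : tot B a := ptA ⟨(b, x, y), h⟩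

/-- The point near infinity with coordinates `(b, w, u)`. -/
def pF (b : Fin m → ℂ) (w u : ℂ) (h : (b, w, u) ∈ Zfar B a) : tot B a := ptF ⟨(b, w, u), h⟩

theorem pA_eq_pF {b : Fin m → ℂ} {x y : ℂ} (h : (b, x, y) ∈ Zaff B a) (hx : x ≠ 0)
    (h' : (b, x⁻¹, y / x ^ 3) ∈ Zfar B a) : pA b x y h = pF b x⁻¹ (y / x ^ 3) h' :=
  Subtype.ext (emb'_tr (z := (b, x, y)) hx).symm

theorem pA_inj {b b' : Fin m → ℂ} {x x' y y' : ℂ} {h : (b, x, y) ∈ Zaff B a}
    {h' : (b', x', y') ∈ Zaff B a} : pA b x y h = pA b' x' y' h' ↔ b = b' ∧ x = x' ∧ y = y' := by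
  constructor
  · intro e
    have := congrArg cA e
    simp only [pA, cA_ptA] at this
    simpa using this
  · rintro ⟨rfl, rfl, rfl⟩; rfl

theorem pF_inj {b b' : Fin m → ℂ} {x x' y y' : ℂ} {h : (b, x, y) ∈ Zfar B a}
    {h' : (b', x', y') ∈ Zfar B a} : pF b x y h = pF b' x' y' h' ↔ b = b' ∧ x = x' ∧ y = y' := by
  constructor
  · intro e
    have := congrArg cF e
    simp only [pF, cF_ptF] at this
    simpa using this
  · rintro ⟨rfl, rfl, rfl⟩; rfl

open Classical in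
/-- The section with coordinates `x(b)`, `y(b)`. -/
def secA (x y : (Fin m → ℂ) → ℂ) [Nonempty (tot B a)] (b : Fin m → ℂ) : tot B a :=
  if h : (b, x b, y b) ∈ Zaff B a then pA b (x b) (y b) h else Classical.arbitrary _

open Classical in
/-- The section with coordinates `w(b)`, `u(b)` near infinity. -/
def secF (w u : (Fin m → ℂ) → ℂ) [Nonempty (tot B a)] (b : Fin m → ℂ) : tot B a :=
  if h : (b, w b, u b) ∈ Zfar B a then pF b (w b) (u b) h else Classical.arbitrary _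

section

variable [Nonempty (tot B a)]

theorem secA_eq {x y : (Fin m → ℂ) → ℂ} {b : Fin m → ℂ} (h : (b, x b, y b) ∈ Zaff B a) :
    (secA x y b : tot B a) = pA b (x b) (y b) h := dif_pos h

theorem secF_eq {x y : (Fin m → ℂ) → ℂ} {b : Fin m → ℂ} (h : (b, x b, y b) ∈ Zfar B a) :
    (secF x y b : tot B a) = pF b (x b) (y b) h := dif_pos h

theorem cA_secA {x y : (Fin m → ℂ) → ℂ} {b : Fin m → ℂ} (h : (b, x b, y b) ∈ Zaff B a) :
    cA (secA x y b : tot B a) = (b, x b, y b) := by rw [secA_eq h]; exact cA_ptA _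

theorem cF_secF {x y : (Fin m → ℂ) → ℂ} {b : Fin m → ℂ} (h : (b, x b, y b) ∈ Zfar B a) :
    cF (secF x y b : tot B a) = (b, x b, y b) := by rw [secF_eq h]; exact cF_ptF _

theorem secA_mem {x y : (Fin m → ℂ) → ℂ} {b : Fin m → ℂ} (h : (b, x b, y b) ∈ Zaff B a) :
    (secA x y b : tot B a) ∈ (aff : Set (tot B a)) := by rw [secA_eq h]; exact ptA_mem _

theorem secF_mem {x y : (Fin m → ℂ) → ℂ} {b : Fin m → ℂ} (h : (b, x b, y b) ∈ Zfar B a) :
    (secF x y b : tot B a) ∈ (far : Set (tot B a)) := by rw [secF_eq h]; exact ptF_mem _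

include hB in
/-- Continuity and holomorphy of the section at a point where its coordinates are holomorphic. -/
theorem secA_at {x y : (Fin m → ℂ) → ℂ} {b₀ : Fin m → ℂ} (hb : b₀ ∈ B)
    (hx : AnalyticAt ℂ x b₀) (hy : AnalyticAt ℂ y b₀)
    (he : ∀ᶠ b in 𝓝 b₀, y b ^ 2 = sx (a b) (x b)) :
    ContinuousAt (secA x y : _ → tot B a) b₀ ∧ ∀ f, hlo f (secA x y b₀) →
      AnalyticAt ℂ (fun b => f (secA x y b : tot B a)) b₀ := by
  have hm : ∀ᶠ b in 𝓝 b₀, (b, x b, y b) ∈ Zaff B a := by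
    filter_upwards [he, hB.mem_nhds hb] with b h1 h2
    exact ⟨h2, h1⟩
  have hcoord : AnalyticAt ℂ (fun b => (b, x b, y b)) b₀ := analyticAt_id.prod (hx.prod hy)
  have hc : ContinuousAt (secA x y : _ → tot B a) b₀ := by
    have h1 : ContinuousAt (fun b => emb (b, x b, y b)) b₀ :=
      continuous_emb.continuousAt.comp hcoord.continuousAt
    rw [Topology.IsEmbedding.subtypeVal.continuousAt_iff]
    refine h1.congr ?_
    filter_upwards [hm] with b h
    rw [Function.comp_apply, secA_eq h]; rfl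
  refine ⟨hc, fun f hf => ?_⟩
  obtain ⟨g, hg, e⟩ := (hlo_aff (secA_mem hm.self_of_nhds)).1 hf
  rw [cA_secA hm.self_of_nhds] at hg
  have h2 : AnalyticAt ℂ (fun b => g (b, x b, y b)) b₀ := AnalyticAt.comp hg hcoord
  refine h2.congr ?_
  filter_upwards [hm, hc.eventually e] with b h3 h4
  rw [h4, cA_secA h3]

include hB in
/-- The same near infinity. -/
theorem secF_at {w u : (Fin m → ℂ) → ℂ} {b₀ : Fin m → ℂ} (hb : b₀ ∈ B)
    (hw : AnalyticAt ℂ w b₀) (hu : AnalyticAt ℂ u b₀)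
    (he : ∀ᶠ b in 𝓝 b₀, u b ^ 2 = sw (a b) (w b)) :
    ContinuousAt (secF w u : _ → tot B a) b₀ ∧ ∀ f, hlo f (secF w u b₀) →
      AnalyticAt ℂ (fun b => f (secF w u b : tot B a)) b₀ := by
  have hm : ∀ᶠ b in 𝓝 b₀, (b, w b, u b) ∈ Zfar B a := by
    filter_upwards [he, hB.mem_nhds hb] with b h1 h2
    exact ⟨h2, h1⟩
  have hcoord : AnalyticAt ℂ (fun b => (b, w b, u b)) b₀ := analyticAt_id.prod (hw.prod hu)
  have hc : ContinuousAt (secF w u : _ → tot B a) b₀ := by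
    have h1 : ContinuousAt (fun b => emb' (b, w b, u b)) b₀ :=
      continuous_emb'.continuousAt.comp hcoord.continuousAt
    rw [Topology.IsEmbedding.subtypeVal.continuousAt_iff]
    refine h1.congr ?_
    filter_upwards [hm] with b h
    rw [Function.comp_apply, secF_eq h]; rfl
  refine ⟨hc, fun f hf => ?_⟩
  obtain ⟨g, hg, e⟩ := (hlo_far (secF_mem hm.self_of_nhds)).1 hf
  rw [cF_secF hm.self_of_nhds] at hg
  have h2 : AnalyticAt ℂ (fun b => g (b, w b, u b)) b₀ := AnalyticAt.comp hg hcoord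
  refine h2.congr ?_
  filter_upwards [hm, hc.eventually e] with b h3 h4
  rw [h4, cF_secF h3]

/-- Sections in the affine part. -/
theorem isSec_secA {x y : (Fin m → ℂ) → ℂ} {B' : Set (Fin m → ℂ)} (hB' : IsOpen B')
    (hBB : B' ⊆ B) (hx : ∀ b ∈ B', AnalyticAt ℂ x b) (hy : ∀ b ∈ B', AnalyticAt ℂ y b)
    (he : ∀ b ∈ B', y b ^ 2 = sx (a b) (x b)) :
    IsSec (startS B a hB ha hK) B' (secA x y) := by
  intro b hb
  obtain ⟨h1, h2⟩ := secA_at hB (hBB hb) (hx b hb) (hy b hb) (by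
    filter_upwards [hB'.mem_nhds hb] with c hc using he c hc)
  refine ⟨?_, h1, h2⟩
  exact congrArg Prod.fst (cA_secA (x := x) (y := y) ⟨hBB hb, he b hb⟩)

/-- Sections near infinity. -/
theorem isSec_secF {w u : (Fin m → ℂ) → ℂ} {B' : Set (Fin m → ℂ)} (hB' : IsOpen B')
    (hBB : B' ⊆ B) (hw : ∀ b ∈ B', AnalyticAt ℂ w b) (hu : ∀ b ∈ B', AnalyticAt ℂ u b)
    (he : ∀ b ∈ B', u b ^ 2 = sw (a b) (w b)) :
    IsSec (startS B a hB ha hK) B' (secF w u) := by
  intro b hb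
  obtain ⟨h1, h2⟩ := secF_at hB (hBB hb) (hw b hb) (hu b hb) (by
    filter_upwards [hB'.mem_nhds hb] with c hc using he c hc)
  refine ⟨?_, h1, h2⟩
  exact congrArg Prod.fst (cF_secF (x := w) (y := u) ⟨hBB hb, he b hb⟩)

end

/-! ### Smooth points and nodes -/

/-- Smooth points of the affine part. -/
theorem smooth_aff {P : tot B a} (hP : P ∈ (aff : Set (tot B a)))
    (h : yC P ≠ 0 ∨ sx1 (a (pr P)) (xC P) ≠ 0) : (startS B a hB ha hK).SmoothAt P := by
  have hm := cA_mem hP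
  have hb : pr P ∈ B := hm.1
  have hF : AnalyticAt ℂ (fun z : (Fin m → ℂ) × ℂ × ℂ => z.2.2 ^ 2 - sx (a z.1) z.2.1)
      (pr P, xC P, yC P) :=
    ((analyticAt_snd' _).pow 2).sub (analyticAt_sx (ha _ hb) analyticAt_fst rfl (analyticAt_mid _))
  have hZ : ∀ᶠ z in 𝓝 ((pr P, xC P, yC P) : (Fin m → ℂ) × ℂ × ℂ),
      z ∈ Zaff B a ↔ z.2.2 ^ 2 - sx (a z.1) z.2.1 = 0 := by
    filter_upwards [continuousAt_fst.eventually (hB.mem_nhds hb)] with z hz
    rw [sub_eq_zero]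
    exact ⟨fun h => h.2, fun h => ⟨hz, h⟩⟩
  have key : ∃ U x y, P ∈ U ∧ U ⊆ aff ∧ IsChart (pr : tot B a → _) hlo U x y (fun _ => 1) := by
    rcases h with h | h
    · have g : HasDerivAt (fun y => y ^ 2 - sx (a (pr P)) (xC P)) (2 * yC P) (yC P) := by
        refine HasDerivAt.congr_deriv ((hasDerivAt_pow 2 (yC P)).sub_const _) ?_
        simp
      exact isAmb_aff.smooth hP hF hZ (mul_ne_zero two_ne_zero h) (Or.inl g)
    · have g : HasDerivAt (fun x => yC P ^ 2 - sx (a (pr P)) x) (-sx1 (a (pr P)) (xC P)) (xC P) :=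
        (hasDerivAt_sx _ _).const_sub _
      exact isAmb_aff.smooth hP hF hZ (neg_ne_zero.2 h) (Or.inr g)
  obtain ⟨U, x, y, h1, -, h2⟩ := key
  have h3 := IsChart.isModel (hol := fun P f => hlo f P) h2
  refine ⟨U, x, y, fun _ => 1, h1, h3, Or.inl fun e => ?_⟩
  have := h3.eqn P h1
  rw [e, zero_mul] at this
  exact zero_ne_one this

/-- Smooth points near infinity. -/
theorem smooth_far {P : tot B a} (hP : P ∈ (far : Set (tot B a))) (h : uC P ≠ 0) :
    (startS B a hB ha hK).SmoothAt P := by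
  have hm := cF_mem hP
  have hb : pr P ∈ B := hm.1
  have g : HasDerivAt (fun y => y ^ 2 - sw (a (pr P)) (wC P)) (2 * uC P) (uC P) := by
    refine HasDerivAt.congr_deriv ((hasDerivAt_pow 2 (uC P)).sub_const _) ?_
    simp
  have hA : AnalyticAt ℂ (fun z : (Fin m → ℂ) × ℂ × ℂ => z.2.2 ^ 2 - sw (a z.1) z.2.1)
      (pr P, wC P, uC P) := ((analyticAt_snd' _).pow 2).sub
      (analyticAt_sw (ha _ hb) analyticAt_fst rfl (analyticAt_mid _))
  have hZ : ∀ᶠ z in 𝓝 ((pr P, wC P, uC P) : (Fin m → ℂ) × ℂ × ℂ),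
      z ∈ Zfar B a ↔ z.2.2 ^ 2 - sw (a z.1) z.2.1 = 0 := by
    filter_upwards [continuousAt_fst.eventually (hB.mem_nhds hb)] with z hz
    rw [sub_eq_zero]
    exact ⟨fun h => h.2, fun h => ⟨hz, h⟩⟩
  obtain ⟨U, x, y, h1, -, h2⟩ := IsAmb.smooth isAmb_far hP hA hZ (mul_ne_zero two_ne_zero h)
    (Or.inl g)
  have h3 := IsChart.isModel (hol := fun P f => hlo f P) h2
  refine ⟨U, x, y, fun _ => 1, h1, h3, Or.inl fun e => ?_⟩
  have := h3.eqn P h1
  rw [e, zero_mul] at this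
  exact zero_ne_one this

/-- The neck model at a node. -/
theorem start_neckModel {e ε : (Fin m → ℂ) → ℂ}
    {G : (Fin m → ℂ) × ℂ → ℂ} {P : tot B a} (hP : P ∈ (aff : Set (tot B a)))
    (he : AnalyticAt ℂ e (pr P)) (hε : AnalyticAt ℂ ε (pr P)) (h2 : yC P = 0)
    (hG : AnalyticAt ℂ G (pr P, xC P)) (hG0 : G (pr P, xC P) ≠ 0)
    (hf : ∀ᶠ z in 𝓝 ((pr P, xC P) : (Fin m → ℂ) × ℂ),
      sx (a z.1) z.2 = ((z.2 - e z.1) ^ 2 - ε z.1) * G z ^ 2) :
    ∃ U, P ∈ U ∧ U ⊆ aff ∧ IsModel (startS B a hB ha hK).π (startS B a hB ha hK).hol U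
      (fun Q => xC Q - e (pr Q) + yC Q / G (pr Q, xC Q))
      (fun Q => xC Q - e (pr Q) - yC Q / G (pr Q, xC Q)) ε := by
  obtain ⟨U, h1, h3, h4⟩ := start_neck hB hP he hε h2 hG hG0 hf
  exact ⟨U, h1, h3, IsChart.isModel (hol := fun P f => hlo f P) h4⟩

end Vale.Agent.P273.H183

end
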