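import Vale.Agent.P273.H183.Fam
import Vale.Agent.P273.D14.H741.ZDefs

/-! DRAFT of the final statement: the cohomological form of Q1 is false for `(2, 14)`. -/

noncomputable section

namespace Vale.Agent.P273.H183

open Set Sum
open scoped Topology
open Vale.Agent.P273.Z (th onX Fn Pix)

/-- The value of a real functional at the element `x`. -/
def onXR (F : (((Fin 3 ⊕ Fin 6) × Bool) ⊕ (Fin 7 × Bool) → Option (Fin 7)) → ℝ) : ℝ :=
  ∑ σ : Bool → Equiv.Perm (Fin 7), ((Equiv.Perm.sign (σ true) * Equiv.Perm.sign (σ false) : ℤ) : ℝ) *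
    (F (th 2 4 σ) - 2 * F (th 1 3 σ) + F (th 0 3 σ) + F (th 1 2 σ) - F (th 0 2 σ))

/-- `q^H(x) = 0`, the new part: every closed form on the stack has integral `0` over `x`. -/
def NewPart : Prop :=
  (∀ p q σ, p ≤ q → q ≤ 6 → ∃ C : Fam (Fin 7 × Bool) 8, C.IsStable ∧ IsStratum (th p q σ) C) ∧
  ∀ F : ∀ m, Fam (Fin 7 × Bool) m → (Fin m → ℂ) → (Fin m → ℂ) [⋀^Fin (8 * 2)]→L[ℝ] ℝ,
    IsClosedForm (Fin 7 × Bool) (8 * 2) F →
    (∀ p q σ (C : Fam (Fin 7 × Bool) 8), p ≤ q → q ≤ 6 → C.IsStable → IsStratum (th p q σ) C →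
      MeasureTheory.IntegrableOn (dens (F 8 C)) C.B) ∧
    ∀ I : (((Fin 3 ⊕ Fin 6) × Bool) ⊕ (Fin 7 × Bool) → Option (Fin 7)) → ℝ,
      (∀ p q σ, p ≤ q → q ≤ 6 → ∃ C : Fam (Fin 7 × Bool) 8, C.IsStable ∧
        IsStratum (th p q σ) C ∧ I (th p q σ) = ∫ b in C.B, dens (F 8 C) b) → onXR I = 0

/-- The final statement. -/
def Final : Prop :=
  (∃ s : Fn (Fin 7 × Bool), Pix 2 9 s ∧
    onX (fun h => s _ _ (fun _ => (0, 0)) fun y => (h y, 0)) ≠ 0) ∧ NewPart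

end Vale.Agent.P273.H183

end
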